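import Vale.Agent.P237.Five.Parts

/-!
# A certificate of the stage inequality in five dimensions: the range B

`S = √(1-q²)`, `m = (q-p)/S`, in units of `2⁻³⁰`.  The partition of `[0,1] × [0,5/2]` was found by
bisection.
-/

namespace Vale.Agent.P237.Five

/-- Part of the certificate. -/
def treeB8 : Tree :=
  .splitS (.splitM (.splitM (.leaf 1061007341 (-17047886) 4313405 .small) (.splitS (.splitS (.leaf 1072954815 (-1049602) 262594 .small) (.splitM (.leaf 1068747112 (-3161214) 265709 .small) (.leaf 1068747112 (-3161214) 265709 (.split .none)))) (.splitS (.splitM (.leaf 1060281512 (-5310801) 272125 .small) (.leaf 1060281512 (-5310801) 272125 (.split .none))) (.leaf 1047454564 (-7526267) 282247 (.split .none))))) (.splitS (.splitM (.splitS (.splitM (.leaf 1072954815 (-1049602) 262594 (.split .none)) (.leaf 1072954815 (-1049602) 262594 (.split .none))) (.splitM (.leaf 1068747112 (-3161214) 265709 (.split .none)) (.leaf 1068747112 (-3161214) 265709 (.split .none)))) (.splitS (.leaf 1072954815 (-1049602) 262594 (.split .none)) (.splitM (.leaf 1068747112 (-3161214) 265709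 (.split .none)) (.leaf 1068747112 (-3161214) 265709 (.split .none))))) (.splitM (.splitS (.leaf 1060281512 (-5310801) 272125 (.split .none)) (.leaf 1047454564 (-7526267) 282247 (.split .none))) (.splitS (.splitM (.leaf 1060281512 (-5310801) 272125 (.split .none)) (.leaf 1060281512 (-5310801) 272125 (.split .chord))) (.splitM (.leaf 1047454564 (-7526267) 282247 (.split .none)) (.leaf 1047454564 (-7526267) 282247 (.split .chord))))))) (.splitM (.splitS (.splitM (.splitS (.splitM (.leaf 1030102993 (-9839811) 296755 .small) (.leaf 1030102993 (-9839811) 296755 (.split .none))) (.leaf 1007992589 (-12290557) 316721 (.split .none))) (.splitS (.leaf 1030102993 (-9839811) 296755 (.split .none)) (.leaf 1007992589 (-12290557) 316721 (.split .none)))) (.splitM (.leaf 964082877 (-32748807) 1446374 (.split .none)) (.splitS (.leaf 980800674 (-14928447) 343811 (.split .none)) (.leaf 948088715 (-17820359) 380660 (.split .none))))) (.splitS (.splitM (.splitS (.leaf 1030102993 (-9839811) 296755 (.split .none)) (.splitM (.leaf 1007992589 (-12290557) 316721 (.split .none)) (.leaf 1007992589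 (-12290557) 316721 (.split .none)))) (.splitS (.splitM (.leaf 1030102993 (-9839811) 296755 (.split .chord)) (.splitS (.leaf 1035096038 (-4623157) 73147 (.split .chord)) (.leaf 1025258352 (-5216653) 75272 (.split .chord)))) (.splitM (.splitS (.leaf 1014215614 (-5828570) 77759 (.split .chord)) (.leaf 1001927952 (-6461986) 80655 (.split .chord))) (.splitS (.leaf 1014215614 (-5828570) 77759 (.split .chord)) (.leaf 1001927952 (-6461986) 80655 (.split .chord)))))) (.splitM (.splitS (.splitM (.leaf 980800674 (-14928447) 343811 (.split .none)) (.leaf 980800674 (-14928447) 343811 (.split .chord))) (.splitM (.leaf 948088715 (-17820359) 380660 (.split .none)) (.splitS (.leaf 957091390 (-8529554) 92530 (.split .none)) (.leaf 939276397 (-9290804) 97897 (.mono .none))))) (.splitS (.splitM (.splitS (.leaf 988348902 (-7120433) 84025 (.split .chord)) (.leaf 973424379 (-7808013) 87950 (.split .chord))) (.splitS (.splitM (.leaf 988348902 (-7120433) 84025 (.split .chord)) (.leaf 988348902 (-7120433) 84025 (.split .chord))) (.splitM (.leaf 973424379 (-7808013) 87950 (.split .chord)) (.leaf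 973424379 (-7808013) 87950 (.split .chord))))) (.splitM (.splitS (.leaf 957091390 (-8529554) 92530 (.mono .chord)) (.splitM (.leaf 939276397 (-9290804) 97897 (.mono .chord)) (.leaf 939276397 (-9290804) 97897 (.mono .chord)))) (.splitS (.splitM (.leaf 957091390 (-8529554) 92530 (.mono .chord)) (.splitS (.leaf 961378992 (-4172249) 22827 (.mono .flat)) (.leaf 952850055 (-4357304) 23445 (.mono .flat)))) (.splitM (.splitS (.leaf 943945911 (-4547509) 24115 (.mono .flat)) (.leaf 934655832 (-4743295) 24841 (.mono .chord))) (.splitS (.leaf 943945911 (-4547509) 24115 (.mono .flat)) (.leaf 934655832 (-4743295) 24841 (.mono .flat))))))))))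

/-- Part of the certificate. -/
def treeB19 : Tree :=
  .splitM (.splitS (.splitM (.splitS (.splitM (.splitS (.leaf 1035096038 (-4623157) 73147 (.split .chord)) (.leaf 1025258352 (-5216653) 75272 (.split .chord))) (.splitS (.leaf 1035096038 (-4623157) 73147 (.split .chord)) (.splitM (.leaf 1025258352 (-5216653) 75272 (.split .flat)) (.leaf 1025258352 (-5216653) 75272 (.split .flat))))) (.splitM (.splitS (.splitM (.leaf 1014215614 (-5828570) 77759 (.split .chord)) (.leaf 1014215614 (-5828570) 77759 (.split .flat))) (.splitM (.leaf 1001927952 (-6461986) 80655 (.split .chord)) (.leaf 1001927952 (-6461986) 80655 (.split .flat)))) (.splitS (.splitM (.leaf 1014215614 (-5828570) 77759 (.split .flat)) (.leaf 1014215614 (-5828570) 77759 (.split .flat))) (.splitM (.leaf 1001927952 (-6461986) 80655 (.split .flat)) (.leaf 1001927952 (-6461986) 80655 (.volume .flat)))))) (.splitM (.splitS (.splitS (.leaf 1035096038 (-4623157) 73147 (.split .flat)) (.leaf 1025258352 (-5216653) 75272 (.volume .flat))) (.leaf 1007992589 (-12290557) 316721 (.volume .flat))) (.leaf 1018741199 (-22130369)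 1225519 (.volume .flat)))) (.splitM (.splitS (.splitM (.splitS (.splitM (.leaf 988348902 (-7120433) 84025 (.split .chord)) (.splitS (.leaf 991929898 (-3476193) 20782 (.split .flat)) (.leaf 984809919 (-3644239) 21236 (.split .flat)))) (.splitM (.splitS (.leaf 977350109 (-3816059) 21726 (.mono .flat)) (.leaf 969542624 (-3991953) 22255 (.mono .flat))) (.splitS (.leaf 977350109 (-3816059) 21726 (.mono .flat)) (.leaf 969542624 (-3991953) 22255 (.mono .flat))))) (.splitM (.splitS (.leaf 988348902 (-7120433) 84025 (.split .flat)) (.leaf 973424379 (-7808013) 87950 (.mono .flat))) (.leaf 980800674 (-14928447) 343811 (.volume .flat)))) (.splitM (.splitS (.splitM (.splitS (.leaf 961378992 (-4172249) 22827 (.mono .flat)) (.leaf 952850055 (-4357304) 23445 (.mono .flat))) (.splitS (.leaf 961378992 (-4172249) 22827 (.mono .flat)) (.leaf 952850055 (-4357304) 23445 (.mono .flat)))) (.splitM (.splitS (.leaf 943945911 (-4547509) 24115 (.mono .flat)) (.leaf 934655832 (-4743295) 24841 (.mono .flat))) (.splitS (.leaf 943945911 (-4547509) 24115 (.mono .flat)) (.leaf 934655832 (-4743295)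 24841 (.mono .flat))))) (.leaf 948088715 (-17820359) 380660 (.volume .flat)))) (.splitS (.leaf 980800674 (-14928447) 343811 (.volume .flat)) (.leaf 948088715 (-17820359) 380660 (.volume .flat))))) (.splitM (.splitS (.leaf 1018741199 (-22130369) 1225519 (.volume .flat)) (.leaf 964082877 (-32748807) 1446374 (.volume .flat))) (.leaf 990080155 (-54879176) 5313283 (.volume .flat)))

/-- Part of the certificate. -/
def treeB9 : Tree :=
  .splitS (.splitM (.splitS (.splitM (.splitS (.splitM (.leaf 1072954815 (-1049602) 262594 (.split .chord)) (.leaf 1072954815 (-1049602) 262594 (.split .chord))) (.splitM (.leaf 1068747112 (-3161214) 265709 (.split .chord)) (.leaf 1068747112 (-3161214) 265709 (.split .half)))) (.splitM (.splitS (.splitS (.leaf 1073545180 (-262208) 65565 (.split .chord)) (.leaf 1072495770 (-787393) 65758 (.split .chord))) (.splitS (.leaf 1070393864 (-1314900) 66146 (.split .chord)) (.leaf 1067233238 (-1846314) 66735 (.split .chord)))) (.splitS (.leaf 1072954815 (-1049602) 262594 (.split .chord)) (.leaf 1068747112 (-3161214) 265709 (.split .chord))))) (.splitM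 (.splitS (.splitM (.leaf 1060281512 (-5310801) 272125 (.split .chord)) (.splitS (.leaf 1063004445 (-2383278) 67535 (.split .chord)) (.leaf 1057694665 (-2927522) 68557 (.split .chord)))) (.splitM (.splitS (.leaf 1051287512 (-3480891) 69818 (.split .chord)) (.leaf 1043762765 (-4045376) 71339 (.split .chord))) (.splitS (.leaf 1051287512 (-3480891) 69818 (.split .chord)) (.leaf 1043762765 (-4045376) 71339 (.split .chord))))) (.splitS (.splitM (.splitS (.leaf 1063004445 (-2383278) 67535 (.split .chord)) (.leaf 1057694665 (-2927522) 68557 (.split .chord))) (.leaf 1060281512 (-5310801) 272125 (.split .chord))) (.splitM (.splitS (.leaf 1051287512 (-3480891) 69818 (.split .flat)) (.leaf 1043762765 (-4045376) 71339 (.split .flat))) (.leaf 1047454564 (-7526267) 282247 (.volume .flat)))))) (.splitS (.splitM (.splitM (.splitS (.leaf 1072954815 (-1049602) 262594 (.volume .chord)) (.leaf 1068747112 (-3161214) 265709 (.volume .flat))) (.leaf 1070586818 (-4210817) 1055812 (.volume .flat))) (.leaf 1070586818 (-4210817) 1055812 (.volume .flat))) (.splitM (.leaf 1053590894 (-12837069)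 1107775 (.volume .chord)) (.leaf 1053590894 (-12837069) 1107775 (.volume .flat))))) (treeB19)

/-- Part of the certificate. -/
def treeB4 : Tree :=
  .splitM (treeB8) (treeB9)

/-- Part of the certificate. -/
def treeB40 : Tree :=
  .splitS (.splitM (.splitS (.leaf 909258835 (-21060435) 431576 (.split .none)) (.leaf 863482121 (-24788690) 503989 (.split .none))) (.splitS (.leaf 909258835 (-21060435) 431576 (.split .none)) (.splitM (.leaf 863482121 (-24788690) 503989 (.mono .none)) (.leaf 863482121 (-24788690) 503989 (.mono .none))))) (.splitM (.splitS (.leaf 809573667 (-29227452) 611678 (.split .none)) (.splitM (.leaf 745756916 (-34760538) 782919 (.mono .none)) (.leaf 745756916 (-34760538) 782919 (.mono .none)))) (.splitS (.splitM (.leaf 809573667 (-29227452) 611678 (.mono .none)) (.splitS (.leaf 824332030 (-14002248) 144837 (.mono .none)) (.leaf 795121141 (-15225203) 161401 (.mono .half)))) (.splitM (.splitS (.leaf 763319196 (-16597776) 182437 (.mono .none)) (.leaf 728586030 (-18162761) 209810 (.mono .none))) (.splitS (.splitM (.leaf 763319196 (-16597776) 182437 (.mono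 .none)) (.leaf 763319196 (-16597776) 182437 (.mono .half))) (.splitM (.leaf 728586030 (-18162761) 209810 (.mono .half)) (.splitS (.leaf 737717900 (-8871604) 50522 (.mono .chord)) (.splitM (.leaf 719559060 (-9291157) 54444 (.mono .chord)) (.leaf 719559060 (-9291157) 54444 (.mono .chord)))))))))

/-- Part of the certificate. -/
def treeB165 : Tree :=
  .splitS (.splitM (.splitS (.splitM (.leaf 919893211 (-10098700) 104217 (.mono .chord)) (.splitS (.leaf 924968188 (-4945137) 25630 (.mono .chord)) (.leaf 914870345 (-5153563) 26488 (.mono .chord)))) (.splitM (.splitS (.leaf 904348558 (-5369158) 27423 (.mono .chord)) (.leaf 893387845 (-5592576) 28445 (.mono .chord))) (.splitS (.splitM (.leaf 904348558 (-5369158) 27423 (.mono .chord)) (.leaf 904348558 (-5369158) 27423 (.mono .chord))) (.splitM (.leaf 893387845 (-5592576) 28445 (.mono .chord)) (.splitS (.leaf 896191178 (-2767844) 7046 (.mono .flat)) (.leaf 890598734 (-2824731) 7179 (.mono .flat))))))) (.splitS (.splitM (.splitS (.splitM (.leaf 924968188 (-4945137) 25630 (.mono .flat)) (.leaf 924968188 (-4945137) 25630 (.mono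 .flat))) (.splitM (.leaf 914870345 (-5153563) 26488 (.mono .flat)) (.leaf 914870345 (-5153563) 26488 (.mono .flat)))) (.splitS (.splitM (.leaf 924968188 (-4945137) 25630 (.mono .flat)) (.leaf 924968188 (-4945137) 25630 (.mono .flat))) (.splitM (.leaf 914870345 (-5153563) 26488 (.mono .flat)) (.leaf 914870345 (-5153563) 26488 (.mono .flat))))) (.splitM (.splitS (.splitM (.leaf 904348558 (-5369158) 27423 (.mono .flat)) (.leaf 904348558 (-5369158) 27423 (.mono .flat))) (.splitM (.leaf 893387845 (-5592576) 28445 (.mono .flat)) (.leaf 893387845 (-5592576) 28445 (.mono .flat)))) (.splitS (.leaf 904348558 (-5369158) 27423 (.mono .flat)) (.leaf 893387845 (-5592576) 28445 (.mono .flat)))))) (.splitM (.splitS (.splitM (.splitS (.splitM (.leaf 881971836 (-5824551) 29564 (.mono .chord)) (.leaf 881971836 (-5824551) 29564 (.mono .chord))) (.splitM (.leaf 870082603 (-6065909) 30793 (.mono .chord)) (.splitS (.leaf 873123176 (-3002163) 7619 (.mono .chord)) (.leaf 867057427 (-3063746) 7780 (.mono .chord))))) (.splitS (.splitM (.splitS (.leaf 884891429 (-2882712) 7319 (.mono .chord))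 (.leaf 879067024 (-2941838) 7465 (.mono .chord))) (.splitS (.leaf 884891429 (-2882712) 7319 (.mono .flat)) (.leaf 879067024 (-2941838) 7465 (.mono .flat)))) (.splitM (.splitS (.splitM (.leaf 873123176 (-3002163) 7619 (.mono .flat)) (.leaf 873123176 (-3002163) 7619 (.mono .flat))) (.leaf 867057427 (-3063746) 7780 (.mono .flat))) (.leaf 870082603 (-6065909) 30793 (.mono .flat))))) (.splitM (.splitS (.splitM (.splitS (.leaf 860867201 (-3126648) 7949 (.mono .chord)) (.leaf 854549792 (-3190937) 8126 (.mono .chord))) (.splitS (.splitM (.leaf 860867201 (-3126648) 7949 (.mono .chord)) (.leaf 860867201 (-3126648) 7949 (.mono .flat))) (.splitM (.leaf 854549792 (-3190937) 8126 (.mono .chord)) (.leaf 854549792 (-3190937) 8126 (.mono .flat))))) (.splitM (.splitS (.leaf 848102359 (-3256682) 8313 (.mono .chord)) (.splitM (.leaf 841521912 (-3323960) 8510 (.mono .chord)) (.leaf 841521912 (-3323960) 8510 (.mono .chord)))) (.splitS (.splitM (.leaf 848102359 (-3256682) 8313 (.mono .flat)) (.leaf 848102359 (-3256682) 8313 (.mono .flat))) (.leaf 841521912 (-3323960) 8510 (.mono .flat)))))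 (.splitS (.splitM (.splitS (.leaf 860867201 (-3126648) 7949 (.mono .flat)) (.leaf 854549792 (-3190937) 8126 (.mono .flat))) (.leaf 857700460 (-6317585) 32146 (.mono .flat))) (.splitM (.leaf 844803726 (-6580643) 33641 (.mono .flat)) (.leaf 844803726 (-6580643) 33641 (.mono .flat)))))) (.splitS (.splitM (.splitS (.splitM (.leaf 881971836 (-5824551) 29564 (.mono .flat)) (.leaf 881971836 (-5824551) 29564 (.mono .flat))) (.splitM (.leaf 870082603 (-6065909) 30793 (.mono .flat)) (.leaf 870082603 (-6065909) 30793 (.mono .flat)))) (.splitS (.leaf 881971836 (-5824551) 29564 (.mono .flat)) (.leaf 870082603 (-6065909) 30793 (.mono .flat)))) (.splitM (.splitS (.leaf 857700460 (-6317585) 32146 (.mono .flat)) (.leaf 844803726 (-6580643) 33641 (.mono .flat))) (.leaf 851219208 (-12898229) 131537 (.mono .flat)))))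

/-- Part of the certificate. -/
def treeB82 : Tree :=
  .splitM (.splitS (.splitM (.leaf 909258835 (-21060435) 431576 (.mono .half)) (.splitS (.leaf 919893211 (-10098700) 104217 (.mono .chord)) (.splitM (.leaf 898840272 (-10961734) 111714 (.mono .none)) (.leaf 898840272 (-10961734) 111714 (.mono .chord))))) (.splitM (.splitS (.leaf 875997048 (-11890461) 120686 (.mono .none)) (.splitM (.leaf 851219208 (-12898229) 131537 (.mono .none)) (.leaf 851219208 (-12898229) 131537 (.mono .chord)))) (.splitS (.splitM (.leaf 875997048 (-11890461) 120686 (.mono .chord)) (.splitS (.leaf 881971836 (-5824551) 29564 (.mono .chord)) (.leaf 870082603 (-6065909) 30793 (.mono .chord)))) (.splitM (.splitS (.leaf 857700460 (-6317585) 32146 (.mono .chord)) (.leaf 844803726 (-6580643) 33641 (.mono .chord))) (.splitS (.splitM (.leaf 857700460 (-6317585) 32146 (.mono .chord)) (.leaf 857700460 (-6317585) 32146 (.mono .chord))) (.splitM (.leaf 844803726 (-6580643) 33641 (.mono .chord)) (.leaf 844803726 (-6580643) 33641 (.mono .chord)))))))) (treeB165)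

/-- Part of the certificate. -/
def treeB665 : Tree :=
  .splitS (.splitM (.splitS (.leaf 831368441 (-6856298) 35298 (.mono .chord)) (.splitM (.leaf 817368037 (-7145949) 37143 (.mono .chord)) (.leaf 817368037 (-7145949) 37143 (.mono .chord)))) (.splitS (.splitM (.leaf 831368441 (-6856298) 35298 (.mono .chord)) (.splitS (.leaf 834805306 (-3392852) 8717 (.mono .chord)) (.splitM (.leaf 827949225 (-3463445) 8935 (.mono .chord)) (.leaf 827949225 (-3463445) 8935 (.mono .chord))))) (.splitM (.splitS (.leaf 820950177 (-3535833) 9166 (.mono .chord)) (.leaf 813804470 (-3610116) 9409 (.mono .chord))) (.splitS (.splitM (.leaf 820950177 (-3535833) 9166 (.mono .chord)) (.splitS (.leaf 822720369 (-1758752) 2277 (.mono .chord)) (.leaf 819184565 (-1777080) 2307 (.mono .chord)))) (.splitM (.leaf 813804470 (-3610116) 9409 (.mono .chord)) (.splitS (.leaf 815611865 (-1795650) 2338 (.mono .flat)) (.leaf 812001779 (-1814465) 2369 (.mono .flat)))))))) (.splitM (.splitS (.splitM (.leaf 802772934 (-7451216) 39207 (.mono .chord)) (.splitS (.leaf 806508207 (-3686403) 9667 (.mono .chord)) (.leaf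 799057263 (-3764812) 9940 (.mono .chord)))) (.splitM (.splitS (.leaf 791447268 (-3845470) 10229 (.mono .chord)) (.leaf 783673589 (-3928515) 10537 (.mono .chord))) (.splitS (.splitM (.leaf 791447268 (-3845470) 10229 (.mono .chord)) (.leaf 791447268 (-3845470) 10229 (.mono .chord))) (.splitM (.leaf 783673589 (-3928515) 10537 (.mono .chord)) (.leaf 783673589 (-3928515) 10537 (.mono .chord)))))) (.splitS (.splitM (.splitS (.splitM (.leaf 806508207 (-3686403) 9667 (.mono .chord)) (.leaf 806508207 (-3686403) 9667 (.mono .chord))) (.splitM (.leaf 799057263 (-3764812) 9940 (.mono .chord)) (.splitS (.leaf 800942136 (-1872467) 2468 (.mono .chord)) (.leaf 797177358 (-1892344) 2503 (.mono .chord))))) (.splitM (.splitS (.splitM (.leaf 806508207 (-3686403) 9667 (.mono .chord)) (.leaf 806508207 (-3686403) 9667 (.mono .flat))) (.splitS (.leaf 800942136 (-1872467) 2468 (.mono .flat)) (.leaf 797177358 (-1892344) 2503 (.mono .flat)))) (.splitS (.leaf 806508207 (-3686403) 9667 (.mono .flat)) (.leaf 799057263 (-3764812) 9940 (.mono .flat))))) (.splitM (.splitS (.splitM (.splitS (.leaf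 793372542 (-1912507) 2539 (.mono .chord)) (.leaf 789527109 (-1932963) 2577 (.mono .chord))) (.splitS (.splitM (.leaf 793372542 (-1912507) 2539 (.mono .chord)) (.leaf 793372542 (-1912507) 2539 (.mono .flat))) (.leaf 789527109 (-1932963) 2577 (.mono .flat)))) (.splitM (.splitS (.leaf 785640461 (-1953722) 2615 (.mono .chord)) (.splitM (.leaf 781711985 (-1974793) 2655 (.mono .chord)) (.leaf 781711985 (-1974793) 2655 (.mono .flat)))) (.leaf 783673589 (-3928515) 10537 (.mono .flat)))) (.splitS (.leaf 791447268 (-3845470) 10229 (.mono .flat)) (.leaf 783673589 (-3928515) 10537 (.mono .flat))))))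

/-- Part of the certificate. -/
def treeB332 : Tree :=
  .splitM (.splitS (.splitM (.leaf 824332030 (-14002248) 144837 (.mono .none)) (.splitS (.leaf 831368441 (-6856298) 35298 (.mono .chord)) (.leaf 817368037 (-7145949) 37143 (.mono .chord)))) (.splitM (.splitS (.leaf 802772934 (-7451216) 39207 (.mono .chord)) (.leaf 787550048 (-7773986) 41525 (.mono .chord))) (.splitS (.leaf 802772934 (-7451216) 39207 (.mono .chord)) (.splitM (.leaf 787550048 (-7773986) 41525 (.mono .chord)) (.leaf 787550048 (-7773986) 41525 (.mono .chord)))))) (treeB665)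

/-- Part of the certificate. -/
def treeB667 : Tree :=
  .splitS (.splitM (.splitS (.splitM (.splitS (.leaf 775731304 (-4014096) 10864 (.mono .chord)) (.splitM (.leaf 767615178 (-4102377) 11212 (.mono .chord)) (.leaf 767615178 (-4102377) 11212 (.mono .chord)))) (.splitS (.splitM (.leaf 775731304 (-4014096) 10864 (.mono .chord)) (.splitS (.leaf 777741046 (-1996185) 2696 (.mono .chord)) (.leaf 773726992 (-2017910) 2738 (.mono .chord)))) (.splitM (.splitS (.leaf 769669146 (-2039977) 2781 (.mono .chord)) (.leaf 765566814 (-2062399) 2826 (.mono .chord))) (.splitS (.leaf 769669146 (-2039977) 2781 (.mono .chord)) (.leaf 765566814 (-2062399) 2826 (.mono .flat)))))) (.splitM (.splitS (.splitM (.leaf 759319635 (-4193535) 11583 (.mono .chord)) (.leaf 759319635 (-4193535) 11583 (.mono .chord))) (.splitM (.leaf 750838729 (-4287766) 11980 (.mono .chord)) (.splitS (.leaf 752985582 (-2131904) 2970 (.mono .chord)) (.leaf 748697866 (-2155862) 3021 (.mono .chord))))) (.splitS (.splitM (.splitS (.leaf 761419275 (-2085185) 2873 (.mono .chord)) (.leaf 757225787 (-2108349) 2921 (.mono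 .chord))) (.leaf 759319635 (-4193535) 11583 (.mono .flat))) (.splitM (.splitS (.leaf 752985582 (-2131904) 2970 (.mono .flat)) (.leaf 748697866 (-2155862) 3021 (.mono .flat))) (.leaf 750838729 (-4287766) 11980 (.mono .flat)))))) (.splitS (.splitM (.splitS (.splitM (.splitS (.leaf 777741046 (-1996185) 2696 (.mono .flat)) (.leaf 773726992 (-2017910) 2738 (.mono .flat))) (.leaf 775731304 (-4014096) 10864 (.mono .flat))) (.leaf 767615178 (-4102377) 11212 (.mono .flat))) (.leaf 771662205 (-8116473) 44143 (.mono .flat))) (.splitM (.leaf 755067403 (-8481302) 47118 (.mono .flat)) (.leaf 755067403 (-8481302) 47118 (.mono .flat))))) (.splitM (.splitS (.splitM (.splitS (.splitM (.leaf 742166104 (-4385283) 12405 (.mono .chord)) (.splitS (.leaf 744361819 (-2180237) 3075 (.mono .chord)) (.leaf 739976591 (-2205045) 3130 (.mono .flat)))) (.splitM (.splitS (.leaf 735541301 (-2230300) 3187 (.mono .chord)) (.leaf 731055039 (-2256019) 3246 (.mono .chord))) (.leaf 733294955 (-4486320) 12861 (.mono .flat)))) (.splitS (.leaf 742166104 (-4385283) 12405 (.mono .flat)) (.leaf 733294955 (-4486320)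 12861 (.mono .flat)))) (.splitM (.splitS (.splitM (.leaf 724217986 (-4591137) 13350 (.mono .chord)) (.leaf 724217986 (-4591137) 13350 (.mono .flat))) (.leaf 714927356 (-4700019) 13878 (.mono .flat))) (.leaf 719559060 (-9291157) 54444 (.mono .flat)))) (.splitS (.splitM (.leaf 737717900 (-8871604) 50522 (.mono .flat)) (.leaf 737717900 (-8871604) 50522 (.mono .flat))) (.leaf 719559060 (-9291157) 54444 (.mono .flat))))

/-- Part of the certificate. -/
def treeB333 : Tree :=
  .splitM (.splitS (.splitM (.splitS (.leaf 771662205 (-8116473) 44143 (.mono .chord)) (.splitM (.leaf 755067403 (-8481302) 47118 (.mono .chord)) (.leaf 755067403 (-8481302) 47118 (.mono .chord)))) (.splitS (.splitM (.leaf 771662205 (-8116473) 44143 (.mono .chord)) (.splitS (.leaf 775731304 (-4014096) 10864 (.mono .chord)) (.leaf 767615178 (-4102377) 11212 (.mono .chord)))) (.splitM (.splitS (.leaf 759319635 (-4193535) 11583 (.mono .chord)) (.leaf 750838729 (-4287766) 11980 (.mono .chord))) (.splitS (.leaf 759319635 (-4193535) 11583 (.mono .chord)) (.splitM (.leaf 750838729 (-4287766) 11980 (.mono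 .chord)) (.leaf 750838729 (-4287766) 11980 (.mono .chord))))))) (.splitM (.splitS (.splitM (.leaf 737717900 (-8871604) 50522 (.mono .chord)) (.splitS (.leaf 742166104 (-4385283) 12405 (.mono .chord)) (.leaf 733294955 (-4486320) 12861 (.mono .chord)))) (.splitM (.splitS (.leaf 724217986 (-4591137) 13350 (.mono .chord)) (.leaf 714927356 (-4700019) 13878 (.mono .chord))) (.splitS (.leaf 724217986 (-4591137) 13350 (.mono .chord)) (.leaf 714927356 (-4700019) 13878 (.mono .chord))))) (.splitS (.splitM (.splitS (.leaf 742166104 (-4385283) 12405 (.mono .chord)) (.leaf 733294955 (-4486320) 12861 (.mono .chord))) (.splitS (.splitM (.leaf 742166104 (-4385283) 12405 (.mono .chord)) (.leaf 742166104 (-4385283) 12405 (.mono .chord))) (.splitM (.leaf 733294955 (-4486320) 12861 (.mono .chord)) (.leaf 733294955 (-4486320) 12861 (.mono .chord))))) (.splitM (.splitS (.splitM (.leaf 724217986 (-4591137) 13350 (.mono .chord)) (.leaf 724217986 (-4591137) 13350 (.mono .chord))) (.splitM (.leaf 714927356 (-4700019) 13878 (.mono .chord)) (.leaf 714927356 (-4700019) 13878 (.mono .chord))))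 (.splitS (.splitM (.leaf 724217986 (-4591137) 13350 (.mono .chord)) (.leaf 724217986 (-4591137) 13350 (.mono .chord))) (.splitM (.leaf 714927356 (-4700019) 13878 (.mono .chord)) (.leaf 714927356 (-4700019) 13878 (.mono .chord)))))))) (treeB667)

/-- Part of the certificate. -/
def treeB166 : Tree :=
  .splitS (treeB332) (treeB333)

/-- Part of the certificate. -/
def treeB167 : Tree :=
  .splitS (.splitM (.splitS (.splitM (.splitS (.splitM (.splitM (.splitS (.leaf 834805306 (-3392852) 8717 (.mono .chord)) (.splitS (.leaf 829683168 (-1722788) 2221 (.mono .chord)) (.leaf 826219750 (-1740656) 2249 (.mono .flat)))) (.splitS (.leaf 834805306 (-3392852) 8717 (.mono .flat)) (.leaf 827949225 (-3463445) 8935 (.mono .flat)))) (.splitS (.leaf 834805306 (-3392852) 8717 (.mono .flat)) (.leaf 827949225 (-3463445) 8935 (.mono .flat)))) (.splitM (.splitS (.splitM (.leaf 820950177 (-3535833) 9166 (.mono .flat)) (.leaf 820950177 (-3535833) 9166 (.mono .flat))) (.leaf 813804470 (-3610116) 9409 (.mono .flat))) (.leaf 817368037 (-7145949) 37143 (.mono .flat)))) (.splitS (.splitM (.leaf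 831368441 (-6856298) 35298 (.mono .flat)) (.leaf 831368441 (-6856298) 35298 (.mono .flat))) (.leaf 817368037 (-7145949) 37143 (.mono .flat)))) (.splitM (.splitS (.splitM (.leaf 802772934 (-7451216) 39207 (.mono .flat)) (.leaf 802772934 (-7451216) 39207 (.mono .flat))) (.splitM (.leaf 787550048 (-7773986) 41525 (.mono .flat)) (.leaf 787550048 (-7773986) 41525 (.mono .flat)))) (.splitS (.leaf 802772934 (-7451216) 39207 (.mono .flat)) (.leaf 787550048 (-7773986) 41525 (.mono .flat))))) (.splitS (.splitM (.leaf 824332030 (-14002248) 144837 (.mono .flat)) (.leaf 824332030 (-14002248) 144837 (.mono .flat))) (.splitM (.leaf 795121141 (-15225203) 161401 (.mono .flat)) (.leaf 795121141 (-15225203) 161401 (.mono .flat))))) (.splitM (.splitS (.splitM (.splitS (.leaf 771662205 (-8116473) 44143 (.mono .flat)) (.leaf 755067403 (-8481302) 47118 (.mono .flat))) (.leaf 763319196 (-16597776) 182437 (.mono .flat))) (.splitM (.leaf 728586030 (-18162761) 209810 (.mono .flat)) (.leaf 728586030 (-18162761) 209810 (.mono .flat)))) (.splitS (.splitM (.leaf 763319196 (-16597776) 182437 (.mono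 .flat)) (.leaf 763319196 (-16597776) 182437 (.mono .flat))) (.leaf 728586030 (-18162761) 209810 (.mono .flat))))

/-- Part of the certificate. -/
def treeB83 : Tree :=
  .splitM (treeB166) (treeB167)

/-- Part of the certificate. -/
def treeB41 : Tree :=
  .splitS (treeB82) (treeB83)

/-- Part of the certificate. -/
def treeB20 : Tree :=
  .splitM (treeB40) (treeB41)

/-- Part of the certificate. -/
def treeB339 : Tree :=
  .splitM (.splitS (.splitM (.splitS (.leaf 614002030 (-12035420) 87640 (.mono .none)) (.leaf 589196818 (-12781337) 99186 (.mono .none))) (.splitS (.splitM (.leaf 614002030 (-12035420) 87640 (.mono .none)) (.leaf 614002030 (-12035420) 87640 (.mono .half))) (.splitM (.leaf 589196818 (-12781337) 99186 (.mono .half)) (.leaf 589196818 (-12781337) 99186 (.mono .half))))) (.splitM (.splitS (.leaf 562798693 (-13631418) 113817 (.mono .half)) (.splitM (.leaf 534571071 (-14615216) 132830 (.mono .none)) (.leaf 534571071 (-14615216) 132830 (.mono .half)))) (.splitS (.splitS (.leaf 569641819 (-6701909) 27435 (.mono .half)) (.splitM (.leaf 556012468 (-6929508)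 29502 (.mono .chord)) (.leaf 556012468 (-6929508) 29502 (.mono .chord)))) (.splitM (.leaf 534571071 (-14615216) 132830 (.mono .half)) (.splitS (.leaf 541910520 (-7174803) 31867 (.mono .chord)) (.leaf 527298027 (-7440412) 34590 (.mono .chord))))))) (.splitS (.splitM (.splitS (.splitM (.splitS (.leaf 620041004 (-5930080) 21273 (.mono .chord)) (.leaf 608006872 (-6105340) 22562 (.mono .chord))) (.splitS (.leaf 620041004 (-5930080) 21273 (.mono .chord)) (.leaf 608006872 (-6105340) 22562 (.mono .chord)))) (.splitM (.splitS (.leaf 595611474 (-6291494) 24000 (.mono .chord)) (.leaf 582831751 (-6489842) 25614 (.mono .chord))) (.splitS (.leaf 595611474 (-6291494) 24000 (.mono .chord)) (.leaf 582831751 (-6489842) 25614 (.mono .chord))))) (.splitS (.splitM (.splitS (.leaf 620041004 (-5930080) 21273 (.mono .chord)) (.leaf 608006872 (-6105340) 22562 (.mono .chord))) (.splitS (.leaf 620041004 (-5930080) 21273 (.mono .chord)) (.leaf 608006872 (-6105340) 22562 (.mono .chord)))) (.splitM (.splitS (.leaf 595611474 (-6291494) 24000 (.mono .chord)) (.leaf 582831751 (-6489842) 25614 (.mono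 .chord))) (.splitS (.leaf 595611474 (-6291494) 24000 (.mono .chord)) (.leaf 582831751 (-6489842) 25614 (.mono .chord)))))) (.splitS (.splitM (.splitS (.splitM (.leaf 569641819 (-6701909) 27435 (.mono .chord)) (.leaf 569641819 (-6701909) 27435 (.mono .chord))) (.splitM (.leaf 556012468 (-6929508) 29502 (.mono .chord)) (.leaf 556012468 (-6929508) 29502 (.mono .chord)))) (.splitS (.splitM (.leaf 569641819 (-6701909) 27435 (.mono .chord)) (.leaf 569641819 (-6701909) 27435 (.mono .flat))) (.splitM (.leaf 556012468 (-6929508) 29502 (.mono .chord)) (.leaf 556012468 (-6929508) 29502 (.mono .flat))))) (.splitM (.splitS (.splitM (.leaf 541910520 (-7174803) 31867 (.mono .chord)) (.leaf 541910520 (-7174803) 31867 (.mono .chord))) (.splitM (.leaf 527298027 (-7440412) 34590 (.mono .chord)) (.leaf 527298027 (-7440412) 34590 (.mono .chord)))) (.splitS (.leaf 541910520 (-7174803) 31867 (.mono .chord)) (.leaf 527298027 (-7440412) 34590 (.mono .flat))))))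

/-- Part of the certificate. -/
def treeB169 : Tree :=
  .splitS (.splitM (.splitS (.splitM (.leaf 690477890 (-19982102) 246534 (.mono .none)) (.leaf 690477890 (-19982102) 246534 (.mono .none))) (.splitM (.leaf 648397310 (-22149720) 297778 (.mono .none)) (.splitS (.leaf 659542788 (-10777170) 70705 (.mono .none)) (.leaf 637400696 (-11372550) 78334 (.mono .half))))) (.splitS (.splitM (.splitS (.leaf 700527892 (-9744569) 59004 (.mono .half)) (.leaf 680551141 (-10237532) 64355 (.mono .half))) (.splitS (.splitM (.leaf 700527892 (-9744569) 59004 (.mono .chord)) (.splitS (.leaf 705414620 (-4813284) 14446 (.mono .chord)) (.leaf 695670666 (-4931285) 15062 (.mono .chord)))) (.splitM (.leaf 680551141 (-10237532) 64355 (.mono .half)) (.splitS (.leaf 685685633 (-5054415) 15730 (.mono .chord)) (.leaf 675448826 (-5183116) 16456 (.mono .chord)))))) (.splitM (.splitS (.splitM (.leaf 659542788 (-10777170) 70705 (.mono .half)) (.leaf 659542788 (-10777170) 70705 (.mono .half))) (.splitM (.leaf 637400696 (-11372550) 78334 (.mono .half)) (.splitS (.leaf 643106030 (-5607947) 19066 (.mono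 .chord)) (.leaf 631734528 (-5764602) 20114 (.mono .chord))))) (.splitS (.splitM (.splitS (.leaf 664948615 (-5317886) 17248 (.mono .chord)) (.leaf 654172310 (-5459283) 18114 (.mono .chord))) (.splitS (.leaf 664948615 (-5317886) 17248 (.mono .chord)) (.leaf 654172310 (-5459283) 18114 (.mono .chord)))) (.splitM (.splitS (.leaf 643106030 (-5607947) 19066 (.mono .chord)) (.leaf 631734528 (-5764602) 20114 (.mono .chord))) (.splitS (.leaf 643106030 (-5607947) 19066 (.mono .chord)) (.leaf 631734528 (-5764602) 20114 (.mono .chord)))))))) (treeB339)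

/-- Part of the certificate. -/
def treeB84 : Tree :=
  .splitM (.splitS (.splitS (.leaf 690477890 (-19982102) 246534 (.mono .none)) (.splitM (.leaf 648397310 (-22149720) 297778 (.mono .none)) (.leaf 648397310 (-22149720) 297778 (.mono .none)))) (.splitS (.splitM (.leaf 601506171 (-24816758) 373118 (.mono .none)) (.splitM (.leaf 601506171 (-24816758) 373118 (.mono .none)) (.leaf 601506171 (-24816758) 373118 (.mono .none)))) (.splitM (.leaf 548561885 (-28246634) 492226 (.mono .none)) (.splitS (.leaf 562798693 (-13631418) 113817 (.mono .none)) (.splitM (.leaf 534571071 (-14615216) 132830 (.mono .none)) (.leaf 534571071 (-14615216) 132830 (.mono .none))))))) (treeB169)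

/-- Part of the certificate. -/
def treeB171 : Tree :=
  .splitS (.splitS (.splitM (.splitS (.splitM (.splitM (.leaf 504205716 (-15775635) 158328 (.mono .none)) (.leaf 504205716 (-15775635) 158328 (.mono .half))) (.splitS (.splitM (.leaf 512131251 (-7729529) 37756 (.mono .chord)) (.leaf 512131251 (-7729529) 37756 (.mono .chord))) (.splitM (.leaf 496359331 (-8046106) 41472 (.mono .chord)) (.leaf 496359331 (-8046106) 41472 (.mono .chord))))) (.splitM (.splitM (.leaf 471287769 (-17177905) 193922 (.mono .none)) (.leaf 471287769 (-17177905) 193922 (.mono .half))) (.splitM (.leaf 471287769 (-17177905) 193922 (.mono .half)) (.leaf 471287769 (-17177905) 193922 (.mono .chord))))) (.splitS (.splitM (.splitS (.leaf 512131251 (-7729529) 37756 (.mono .chord)) (.leaf 496359331 (-8046106) 41472 (.mono .chord))) (.leaf 504205716 (-15775635) 158328 (.mono .flat))) (.splitM (.splitM (.leaf 471287769 (-17177905) 193922 (.mono .chord)) (.leaf 471287769 (-17177905) 193922 (.mono .flat))) (.leaf 471287769 (-17177905) 193922 (.mono .flat))))) (.splitM (.splitS (.splitM (.splitM (.leaf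 435234995 (-18927257) 246312 (.mono .chord)) (.leaf 435234995 (-18927257) 246312 (.mono .chord))) (.splitM (.leaf 435234995 (-18927257) 246312 (.mono .chord)) (.leaf 435234995 (-18927257) 246312 (.mono .chord)))) (.splitM (.splitM (.leaf 395183164 (-21207542) 329281 (.mono .chord)) (.leaf 395183164 (-21207542) 329281 (.mono .chord))) (.splitM (.leaf 395183164 (-21207542) 329281 (.mono .flat)) (.leaf 395183164 (-21207542) 329281 (.mono .flat))))) (.splitS (.splitM (.leaf 435234995 (-18927257) 246312 (.mono .flat)) (.leaf 435234995 (-18927257) 246312 (.mono .flat))) (.splitM (.leaf 395183164 (-21207542) 329281 (.mono .flat)) (.leaf 395183164 (-21207542) 329281 (.mono .flat)))))) (.splitS (.splitS (.splitM (.splitM (.leaf 349743563 (-24378475) 475698 (.mono .chord)) (.leaf 349743563 (-24378475) 475698 (.mono .flat))) (.splitM (.leaf 349743563 (-24378475) 475698 (.mono .flat)) (.splitS (.leaf 362039154 (-11714117) 106932 (.mono .flat)) (.leaf 337685558 (-12664357) 131811 (.mono .flat))))) (.splitM (.splitS (.leaf 311200500 (-13857368) 168480 (.mono .flat)) (.leaf 281978990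 (-15422302) 226641 (.mono .flat))) (.splitS (.splitM (.leaf 311200500 (-13857368) 168480 (.mono .flat)) (.splitM (.leaf 311200500 (-13857368) 168480 (.mono .none)) (.leaf 311200500 (-13857368) 168480 (.mono .none)))) (.splitM (.splitM (.leaf 281978990 (-15422302) 226641 (.mono .none)) (.leaf 281978990 (-15422302) 226641 (.mono .none))) (.splitM (.leaf 281978990 (-15422302) 226641 (.mono .none)) (.leaf 281978990 (-15422302) 226641 .out)))))) (.splitS (.splitM (.splitS (.splitM (.leaf 249047354 (-17612138) 329447 (.mono .none)) (.leaf 249047354 (-17612138) 329447 (.mono .none))) (.splitM (.leaf 210634260 (-21018073) 546565 (.mono .none)) (.leaf 210634260 (-21018073) 546565 (.mono .none)))) (.splitS (.splitM (.leaf 249047354 (-17612138) 329447 (.mono .none)) (.leaf 249047354 (-17612138) 329447 .out)) (.leaf 210634260 (-21018073) 546565 .out))) (.splitM (.splitS (.splitM (.leaf 162714948 (-27557147) 1202474 (.mono .none)) (.leaf 162714948 (-27557147) 1202474 .out)) (.splitM (.splitS (.leaf 115231107 (-19570894) 846675 .out) (.leaf 59275851 (-47406769) 11869082 .out))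 (.leaf 83771296 (-66977663) 16793633 .out))) (.leaf 118307901 (-94534811) 23773090 .out))))

/-- Part of the certificate. -/
def treeB85 : Tree :=
  .splitM (.splitS (.splitS (.splitM (.splitM (.leaf 487571420 (-32953541) 701937 (.mono .none)) (.leaf 487571420 (-32953541) 701937 (.mono .none))) (.splitS (.splitM (.leaf 504205716 (-15775635) 158328 (.mono .none)) (.leaf 504205716 (-15775635) 158328 (.mono .none))) (.splitM (.leaf 471287769 (-17177905) 193922 (.mono .none)) (.leaf 471287769 (-17177905) 193922 (.mono .none))))) (.splitM (.splitS (.leaf 435234995 (-18927257) 246312 (.mono .none)) (.leaf 395183164 (-21207542) 329281 (.mono .none))) (.splitS (.splitM (.leaf 435234995 (-18927257) 246312 (.mono .none)) (.leaf 435234995 (-18927257) 246312 (.mono .none))) (.splitM (.leaf 395183164 (-21207542) 329281 (.mono .none)) (.leaf 395183164 (-21207542) 329281 (.mono .half)))))) (.splitS (.splitS (.splitM (.leaf 349743563 (-24378475) 475698 (.mono .none)) (.splitM (.leaf 349743563 (-24378475) 475698 (.mono .none)) (.leaf 349743563 (-24378475) 475698 (.mono .half)))) (.splitM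 (.leaf 296394099 (-29279671) 784381 (.mono .none)) (.splitM (.leaf 296394099 (-29279671) 784381 (.mono .none)) (.leaf 296394099 (-29279671) 784381 (.mono .none))))) (.splitS (.splitM (.splitM (.leaf 229414957 (-38630212) 1715123 (.mono .none)) (.leaf 229414957 (-38630212) 1715123 (.mono .none))) (.splitS (.leaf 249047354 (-17612138) 329447 (.mono .none)) (.leaf 210634260 (-21018073) 546565 (.mono .none)))) (.splitM (.splitS (.leaf 162714948 (-27557147) 1202474 (.mono .none)) (.splitM (.splitS (.leaf 115231107 (-19570894) 846675 (.mono .none)) (.leaf 59275851 (-47406769) 11869082 (.mono .none))) (.splitS (.leaf 115231107 (-19570894) 846675 (.mono .none)) (.leaf 59275851 (-47406769) 11869082 (.mono .none))))) (.splitS (.leaf 162714948 (-27557147) 1202474 (.mono .none)) (.splitM (.splitS (.leaf 115231107 (-19570894) 846675 (.mono .none)) (.splitM (.leaf 59275851 (-47406769) 11869082 (.mono .none)) (.splitS (.leaf 81542235 (-13868725) 597423 .out) (.leaf 41928701 (-33538043) 8390658 .out)))) (.splitS (.leaf 115231107 (-19570894) 846675 (.mono .none)) (.leaf 59275851 (-47406769)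 11869082 .out)))))))) (treeB171)

/-- Part of the certificate. -/
def treeB42 : Tree :=
  .splitS (treeB84) (treeB85)

/-- Part of the certificate. -/
def treeB688 : Tree :=
  .splitS (.splitM (.splitS (.splitM (.splitS (.leaf 705414620 (-4813284) 14446 (.mono .chord)) (.leaf 695670666 (-4931285) 15062 (.mono .chord))) (.splitS (.splitM (.leaf 705414620 (-4813284) 14446 (.mono .chord)) (.leaf 705414620 (-4813284) 14446 (.mono .chord))) (.splitM (.leaf 695670666 (-4931285) 15062 (.mono .chord)) (.leaf 695670666 (-4931285) 15062 (.mono .chord))))) (.splitM (.splitS (.leaf 685685633 (-5054415) 15730 (.mono .chord)) (.splitM (.leaf 675448826 (-5183116) 16456 (.mono .chord)) (.leaf 675448826 (-5183116) 16456 (.mono .chord)))) (.splitS (.splitM (.leaf 685685633 (-5054415) 15730 (.mono .chord)) (.leaf 685685633 (-5054415) 15730 (.mono .chord))) (.splitM (.leaf 675448826 (-5183116) 16456 (.mono .chord)) (.leaf 675448826 (-5183116) 16456 (.mono .chord)))))) (.splitS (.splitM (.splitS (.splitM (.leaf 705414620 (-4813284) 14446 (.mono .chord)) (.leaf 705414620 (-4813284) 14446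 (.mono .chord))) (.splitM (.leaf 695670666 (-4931285) 15062 (.mono .chord)) (.leaf 695670666 (-4931285) 15062 (.mono .chord)))) (.splitS (.splitM (.leaf 705414620 (-4813284) 14446 (.mono .chord)) (.leaf 705414620 (-4813284) 14446 (.mono .flat))) (.splitM (.leaf 695670666 (-4931285) 15062 (.mono .flat)) (.leaf 695670666 (-4931285) 15062 (.mono .flat))))) (.splitM (.splitS (.splitM (.leaf 685685633 (-5054415) 15730 (.mono .chord)) (.leaf 685685633 (-5054415) 15730 (.mono .chord))) (.splitM (.leaf 675448826 (-5183116) 16456 (.mono .chord)) (.leaf 675448826 (-5183116) 16456 (.mono .flat)))) (.splitS (.leaf 685685633 (-5054415) 15730 (.mono .flat)) (.leaf 675448826 (-5183116) 16456 (.mono .flat)))))) (.splitM (.splitS (.splitM (.splitS (.leaf 664948615 (-5317886) 17248 (.mono .chord)) (.leaf 654172310 (-5459283) 18114 (.mono .chord))) (.splitS (.splitM (.leaf 664948615 (-5317886) 17248 (.mono .chord)) (.leaf 664948615 (-5317886) 17248 (.mono .chord))) (.splitM (.leaf 654172310 (-5459283) 18114 (.mono .chord)) (.leaf 654172310 (-5459283) 18114 (.mono .flat))))) (.splitM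 (.splitS (.leaf 643106030 (-5607947) 19066 (.mono .chord)) (.leaf 631734528 (-5764602) 20114 (.mono .chord))) (.splitS (.leaf 643106030 (-5607947) 19066 (.mono .chord)) (.leaf 631734528 (-5764602) 20114 (.mono .flat))))) (.splitS (.splitM (.splitS (.splitM (.leaf 664948615 (-5317886) 17248 (.mono .flat)) (.leaf 664948615 (-5317886) 17248 (.mono .flat))) (.leaf 654172310 (-5459283) 18114 (.mono .flat))) (.leaf 659542788 (-10777170) 70705 (.mono .flat))) (.splitM (.leaf 637400696 (-11372550) 78334 (.mono .flat)) (.leaf 637400696 (-11372550) 78334 (.mono .flat)))))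

/-- Part of the certificate. -/
def treeB344 : Tree :=
  .splitM (treeB688) (.splitS (.splitM (.splitS (.splitM (.leaf 700527892 (-9744569) 59004 (.mono .flat)) (.leaf 700527892 (-9744569) 59004 (.mono .flat))) (.leaf 680551141 (-10237532) 64355 (.mono .flat))) (.splitS (.leaf 700527892 (-9744569) 59004 (.mono .flat)) (.leaf 680551141 (-10237532) 64355 (.mono .flat)))) (.splitM (.splitS (.leaf 659542788 (-10777170) 70705 (.mono .flat)) (.leaf 637400696 (-11372550) 78334 (.mono .flat))) (.leaf 648397310 (-22149720) 297778 (.mono .flat))))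

/-- Part of the certificate. -/
def treeB172 : Tree :=
  .splitM (treeB344) (.splitM (.splitS (.splitM (.leaf 690477890 (-19982102) 246534 (.mono .flat)) (.leaf 690477890 (-19982102) 246534 (.mono .flat))) (.leaf 648397310 (-22149720) 297778 (.mono .flat))) (.splitS (.leaf 690477890 (-19982102) 246534 (.mono .flat)) (.leaf 648397310 (-22149720) 297778 (.mono .flat))))

/-- Part of the certificate. -/
def treeB86 : Tree :=
  .splitS (treeB172) (.splitM (.splitM (.splitS (.splitM (.splitS (.splitM (.splitS (.leaf 620041004 (-5930080) 21273 (.mono .chord)) (.leaf 608006872 (-6105340) 22562 (.mono .chord))) (.leaf 614002030 (-12035420) 87640 (.mono .flat))) (.splitM (.leaf 589196818 (-12781337) 99186 (.mono .flat)) (.leaf 589196818 (-12781337) 99186 (.mono .flat)))) (.splitS (.leaf 614002030 (-12035420) 87640 (.mono .flat)) (.leaf 589196818 (-12781337) 99186 (.mono .flat)))) (.splitM (.splitS (.leaf 562798693 (-13631418) 113817 (.mono .flat)) (.leaf 534571071 (-14615216) 132830 (.mono .flat))) (.leaf 548561885 (-28246634) 492226 (.mono .flat)))) (.splitS (.splitM (.leaf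 601506171 (-24816758) 373118 (.mono .flat)) (.leaf 601506171 (-24816758) 373118 (.mono .flat))) (.splitM (.leaf 548561885 (-28246634) 492226 (.mono .flat)) (.leaf 548561885 (-28246634) 492226 (.mono .flat))))) (.splitS (.splitM (.leaf 601506171 (-24816758) 373118 (.mono .flat)) (.leaf 601506171 (-24816758) 373118 (.mono .flat))) (.splitM (.splitM (.leaf 548561885 (-28246634) 492226 (.mono .flat)) (.leaf 548561885 (-28246634) 492226 (.mono .flat))) (.splitS (.leaf 562798693 (-13631418) 113817 (.mono .chord)) (.splitM (.leaf 534571071 (-14615216) 132830 (.mono .chord)) (.leaf 534571071 (-14615216) 132830 (.mono .none)))))))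

/-- Part of the certificate. -/
def treeB87 : Tree :=
  .splitS (.splitM (.splitS (.splitM (.splitS (.leaf 504205716 (-15775635) 158328 (.mono .flat)) (.leaf 471287769 (-17177905) 193922 (.mono .flat))) (.splitS (.leaf 504205716 (-15775635) 158328 (.mono .flat)) (.splitM (.leaf 471287769 (-17177905) 193922 (.mono .flat)) (.splitM (.leaf 471287769 (-17177905) 193922 (.mono .flat)) (.leaf 471287769 (-17177905) 193922 (.mono .flat)))))) (.splitM (.splitS (.splitM (.leaf 435234995 (-18927257) 246312 (.mono .flat)) (.leaf 435234995 (-18927257) 246312 (.mono .flat))) (.splitM (.splitM (.leaf 395183164 (-21207542) 329281 (.mono .flat)) (.leaf 395183164 (-21207542) 329281 (.mono .flat))) (.splitS (.leaf 405862575 (-10274728) 75878 (.mono .flat)) (.splitM (.leaf 384668288 (-10932813) 89134 (.mono .flat)) (.leaf 384668288 (-10932813) 89134 (.mono .half)))))) (.splitS (.splitM (.splitS (.leaf 444756160 (-9217434) 57653 (.mono .flat)) (.splitM (.leaf 425836937 (-9709823) 65688 (.mono .flat)) (.leaf 425836937 (-9709823) 65688 (.mono .chord)))) (.splitS (.leaf 444756160 (-9217434)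 57653 (.mono .half)) (.splitM (.leaf 425836937 (-9709823) 65688 (.mono .none)) (.leaf 425836937 (-9709823) 65688 .out)))) (.splitM (.splitS (.splitM (.leaf 405862575 (-10274728) 75878 (.mono .half)) (.leaf 405862575 (-10274728) 75878 (.mono .none))) (.splitM (.leaf 384668288 (-10932813) 89134 (.mono .none)) (.leaf 384668288 (-10932813) 89134 .out))) (.leaf 395183164 (-21207542) 329281 .out))))) (.splitS (.splitM (.splitS (.splitM (.leaf 504205716 (-15775635) 158328 (.mono .flat)) (.leaf 504205716 (-15775635) 158328 (.mono .chord))) (.splitM (.splitM (.leaf 471287769 (-17177905) 193922 (.mono .chord)) (.leaf 471287769 (-17177905) 193922 (.mono .none))) (.leaf 471287769 (-17177905) 193922 (.mono .none)))) (.splitS (.splitM (.leaf 504205716 (-15775635) 158328 (.mono .none)) (.leaf 504205716 (-15775635) 158328 .out)) (.leaf 471287769 (-17177905) 193922 .out))) (.splitS (.leaf 435234995 (-18927257) 246312 .out) (.leaf 395183164 (-21207542) 329281 .out)))) (.splitS (.splitM (.splitM (.splitS (.splitM (.splitS (.splitM (.leaf 362039154 (-11714117) 106932 (.mono .flat)) (.leaf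 362039154 (-11714117) 106932 (.mono .half))) (.splitM (.splitM (.leaf 337685558 (-12664357) 131811 (.mono .flat)) (.leaf 337685558 (-12664357) 131811 (.mono .none))) (.splitM (.leaf 337685558 (-12664357) 131811 (.mono .none)) (.leaf 337685558 (-12664357) 131811 (.mono .none))))) (.splitS (.splitM (.splitM (.leaf 362039154 (-11714117) 106932 (.mono .half)) (.leaf 362039154 (-11714117) 106932 (.mono .none))) (.leaf 362039154 (-11714117) 106932 (.mono .none))) (.leaf 337685558 (-12664357) 131811 .out))) (.splitS (.splitM (.splitM (.leaf 311200500 (-13857368) 168480 (.mono .none)) (.leaf 311200500 (-13857368) 168480 .out)) (.leaf 311200500 (-13857368) 168480 .out)) (.leaf 281978990 (-15422302) 226641 .out))) (.leaf 322455865 (-53658146) 2467672 .out)) (.leaf 322455865 (-53658146) 2467672 .out)) (.splitM (.splitS (.leaf 229414957 (-38630212) 1715123 .out) (.leaf 118307901 (-94534811) 23773090 .out)) (.leaf 166851562 (-133165023) 33686539 .out)))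

/-- Part of the certificate. -/
def treeB43 : Tree :=
  .splitS (treeB86) (treeB87)

/-- Part of the certificate. -/
def treeB21 : Tree :=
  .splitM (treeB42) (treeB43)

/-- Part of the certificate. -/
def treeB10 : Tree :=
  .splitS (treeB20) (treeB21)

/-- Part of the certificate. -/
def treeB11 : Tree :=
  .splitS (.splitM (.splitS (.splitM (.splitM (.splitS (.splitM (.splitS (.splitS (.leaf 924968188 (-4945137) 25630 (.mono .flat)) (.leaf 914870345 (-5153563) 26488 (.mono .flat))) (.splitS (.leaf 904348558 (-5369158) 27423 (.mono .flat)) (.leaf 893387845 (-5592576) 28445 (.mono .flat)))) (.leaf 909258835 (-21060435) 431576 (.volume .flat))) (.splitS (.splitM (.leaf 875997048 (-11890461) 120686 (.mono .flat)) (.leaf 875997048 (-11890461) 120686 (.mono .flat))) (.splitM (.leaf 851219208 (-12898229) 131537 (.mono .flat)) (.leaf 851219208 (-12898229) 131537 (.mono .flat))))) (.leaf 885903944 (-45849126) 1865376 (.volume .flat))) (.leaf 885903944 (-45849126) 1865376 (.volume .flat))) (.splitS (.splitM (.splitM (.splitS (.leaf 824332030 (-14002248) 144837 (.mono .flat))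 (.leaf 795121141 (-15225203) 161401 (.mono .flat))) (.leaf 809573667 (-29227452) 611678 (.volume .flat))) (.leaf 809573667 (-29227452) 611678 (.volume .flat))) (.splitM (.splitM (.splitS (.leaf 763319196 (-16597776) 182437 (.mono .flat)) (.leaf 728586030 (-18162761) 209810 (.mono .flat))) (.leaf 745756916 (-34760538) 782919 (.mono .flat))) (.splitM (.leaf 745756916 (-34760538) 782919 (.volume .flat)) (.leaf 745756916 (-34760538) 782919 (.volume .flat)))))) (.splitM (.splitS (.leaf 885903944 (-45849126) 1865376 (.volume .flat)) (.leaf 776972685 (-63987991) 2771235 (.volume .half))) (.leaf 829159714 (-109837118) 9109137 (.volume .half)))) (.splitM (.splitS (.splitS (.splitM (.splitM (.splitS (.leaf 690477890 (-19982102) 246534 (.mono .flat)) (.leaf 648397310 (-22149720) 297778 (.mono .flat))) (.splitS (.leaf 690477890 (-19982102) 246534 (.mono .flat)) (.leaf 648397310 (-22149720) 297778 (.mono .chord)))) (.splitM (.splitS (.leaf 690477890 (-19982102) 246534 (.mono .flat)) (.leaf 648397310 (-22149720) 297778 (.mono .none))) (.leaf 669166520 (-42131823) 1084885 (.volume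 .none)))) (.splitM (.splitM (.splitS (.splitM (.leaf 601506171 (-24816758) 373118 (.mono .flat)) (.leaf 601506171 (-24816758) 373118 (.mono .none))) (.splitM (.leaf 548561885 (-28246634) 492226 (.mono .none)) (.leaf 548561885 (-28246634) 492226 .out))) (.splitS (.leaf 601506171 (-24816758) 373118 (.mono .none)) (.leaf 548561885 (-28246634) 492226 .out))) (.leaf 574605018 (-53063393) 1718600 .out))) (.splitS (.leaf 450349082 (-73088341) 3614400 .out) (.leaf 234652939 (-186823170) 47829769 .out))) (.splitS (.leaf 620516285 (-95195216) 5498044 .out) (.leaf 328103059 (-259911512) 68191547 .out)))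

/-- Part of the certificate. -/
def treeB5 : Tree :=
  .splitM (treeB10) (treeB11)

/-- Part of the certificate. -/
def treeB2 : Tree :=
  .splitS (treeB4) (treeB5)

/-- Part of the certificate. -/
def treeB3 : Tree :=
  .splitS (.splitM (.splitS (.splitM (.splitS (.leaf 1070586818 (-4210817) 1055812 (.volume .flat)) (.leaf 1053590894 (-12837069) 1107775 (.volume .flat))) (.leaf 1061007341 (-17047886) 4313405 (.volume .flat))) (.splitM (.splitS (.leaf 1018741199 (-22130369) 1225519 (.volume .flat)) (.leaf 964082877 (-32748807) 1446374 (.volume .flat))) (.leaf 990080155 (-54879176) 5313283 (.volume .chord)))) (.splitS (.splitM (.leaf 1061007341 (-17047886) 4313405 (.volume .flat)) (.leaf 1061007341 (-17047886) 4313405 (.volume .flat))) (.splitM (.leaf 990080155 (-54879176) 5313283 (.volume .chord)) (.leaf 990080155 (-54879176) 5313283 (.volume .none))))) (.splitM (.splitS (.splitM (.splitS (.leaf 885903944 (-45849126) 1865376 (.volume .none)) (.leaf 776972685 (-63987991) 2771235 (.volume .none))) (.leaf 829159714 (-109837118) 9109137 (.volume .none))) (.leaf 453180060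 (-355106729) 98073331 .out)) (.splitS (.splitM (.leaf 829159714 (-109837118) 9109137 .out) (.leaf 829159714 (-109837118) 9109137 .out)) (.leaf 453180060 (-355106729) 98073331 .out)))

/-- Part of the certificate. -/
def treeB : Tree :=
  .splitM (treeB2) (treeB3)

set_option maxRecDepth 100000 in
theorem treeB4_check : treeB4.check parB 0 536870912 0 1342177280 = true := by
  decide +kernel

set_option maxRecDepth 100000 in
theorem treeB40_check : treeB40.check parB 536870912 805306368 0 335544320 = true := by
  decide +kernel

set_option maxRecDepth 100000 in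
theorem treeB82_check : treeB82.check parB 536870912 671088640 335544320 671088640 = true := by
  decide +kernel

set_option maxRecDepth 100000 in
theorem treeB166_check : treeB166.check parB 671088640 805306368 335544320 503316480 = true := by
  decide +kernel

set_option maxRecDepth 100000 in
theorem treeB167_check : treeB167.check parB 671088640 805306368 503316480 671088640 = true := by
  decide +kernel

theorem treeB83_check : treeB83.check parB 671088640 805306368 335544320 671088640 = true :=
  Tree.check_splitM (by norm_num) treeB166_check treeB167_check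

theorem treeB41_check : treeB41.check parB 536870912 805306368 335544320 671088640 = true :=
  Tree.check_splitS (by norm_num) treeB82_check treeB83_check

theorem treeB20_check : treeB20.check parB 536870912 805306368 0 671088640 = true :=
  Tree.check_splitM (by norm_num) treeB40_check treeB41_check

set_option maxRecDepth 100000 in
theorem treeB84_check : treeB84.check parB 805306368 939524096 0 335544320 = true := by
  decide +kernel

set_option maxRecDepth 100000 in
theorem treeB85_check : treeB85.check parB 939524096 1073741824 0 335544320 = true := by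
  decide +kernel

theorem treeB42_check : treeB42.check parB 805306368 1073741824 0 335544320 = true :=
  Tree.check_splitS (by norm_num) treeB84_check treeB85_check

set_option maxRecDepth 100000 in
theorem treeB43_check : treeB43.check parB 805306368 1073741824 335544320 671088640 = true := by
  decide +kernel

theorem treeB21_check : treeB21.check parB 805306368 1073741824 0 671088640 = true :=
  Tree.check_splitM (by norm_num) treeB42_check treeB43_check

theorem treeB10_check : treeB10.check parB 536870912 1073741824 0 671088640 = true :=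
  Tree.check_splitS (by norm_num) treeB20_check treeB21_check

set_option maxRecDepth 100000 in
theorem treeB11_check : treeB11.check parB 536870912 1073741824 671088640 1342177280 = true := by
  decide +kernel

theorem treeB5_check : treeB5.check parB 536870912 1073741824 0 1342177280 = true :=
  Tree.check_splitM (by norm_num) treeB10_check treeB11_check

theorem treeB2_check : treeB2.check parB 0 1073741824 0 1342177280 = true :=
  Tree.check_splitS (by norm_num) treeB4_check treeB5_check

set_option maxRecDepth 100000 in
theorem treeB3_check : treeB3.check parB 0 1073741824 1342177280 2684354560 = true := by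
  decide +kernel

theorem treeB_check : treeB.check parB 0 1073741824 0 2684354560 = true :=
  Tree.check_splitM (by norm_num) treeB2_check treeB3_check

end Vale.Agent.P237.Five
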