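import Vale.Agent.P237.Five.Parts

/-!
# A certificate of the stage inequality in five dimensions: the range C

`S = √(1-q²)`, `m = (q-p)/S`, in units of `2⁻³⁰`.  The partition of `[0,1] × [0,5/2]` was found by
bisection.
-/

namespace Vale.Agent.P237.Five

/-- Part of the certificate. -/
def treeC8 : Tree :=
  .splitS (.splitM (.splitS (.splitM (.leaf 1070586818 (-4210817) 1055812 .small) (.splitS (.leaf 1072954815 (-1049602) 262594 .small) (.splitM (.leaf 1068747112 (-3161214) 265709 .small) (.leaf 1068747112 (-3161214) 265709 (.mono .none))))) (.splitM (.splitS (.leaf 1060281512 (-5310801) 272125 .small) (.splitM (.leaf 1047454564 (-7526267) 282247 .small) (.leaf 1047454564 (-7526267) 282247 (.mono .none)))) (.splitS (.splitM (.leaf 1060281512 (-5310801) 272125 (.mono .none)) (.leaf 1060281512 (-5310801) 272125 (.split .none))) (.leaf 1047454564 (-7526267) 282247 (.split .none))))) (.splitS (.splitM (.splitS (.splitM (.leaf 1072954815 (-1049602) 262594 (.split .none)) (.leaf 1072954815 (-1049602) 262594 (.split .none))) (.leaf 1068747112 (-3161214) 265709 (.split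 .none))) (.splitS (.leaf 1072954815 (-1049602) 262594 (.split .none)) (.splitM (.leaf 1068747112 (-3161214) 265709 (.split .none)) (.leaf 1068747112 (-3161214) 265709 (.split .none))))) (.splitM (.splitS (.leaf 1060281512 (-5310801) 272125 (.split .none)) (.leaf 1047454564 (-7526267) 282247 (.split .none))) (.splitS (.splitM (.leaf 1060281512 (-5310801) 272125 (.split .none)) (.leaf 1060281512 (-5310801) 272125 (.split .none))) (.splitM (.leaf 1047454564 (-7526267) 282247 (.split .none)) (.leaf 1047454564 (-7526267) 282247 (.split .chord))))))) (.splitM (.splitS (.splitM (.splitS (.splitM (.leaf 1030102993 (-9839811) 296755 .small) (.leaf 1030102993 (-9839811) 296755 (.mono .none))) (.leaf 1007992589 (-12290557) 316721 (.split .none))) (.leaf 1018741199 (-22130369) 1225519 (.split .none))) (.splitM (.leaf 964082877 (-32748807) 1446374 (.split .none)) (.leaf 964082877 (-32748807) 1446374 (.split .none)))) (.splitS (.splitM (.splitS (.leaf 1030102993 (-9839811) 296755 (.split .none)) (.leaf 1007992589 (-12290557) 316721 (.split .none))) (.splitS (.splitM (.leaf 1030102993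 (-9839811) 296755 (.split .none)) (.leaf 1030102993 (-9839811) 296755 (.split .chord))) (.splitM (.leaf 1007992589 (-12290557) 316721 (.mono .none)) (.splitS (.leaf 1014215614 (-5828570) 77759 (.mono .flat)) (.leaf 1001927952 (-6461986) 80655 (.mono .chord)))))) (.splitM (.splitS (.leaf 980800674 (-14928447) 343811 (.split .none)) (.splitM (.leaf 948088715 (-17820359) 380660 (.mono .none)) (.leaf 948088715 (-17820359) 380660 (.mono .none)))) (.splitS (.splitM (.splitS (.leaf 988348902 (-7120433) 84025 (.mono .none)) (.leaf 973424379 (-7808013) 87950 (.mono .chord))) (.splitS (.leaf 988348902 (-7120433) 84025 (.mono .chord)) (.splitM (.leaf 973424379 (-7808013) 87950 (.mono .flat)) (.leaf 973424379 (-7808013) 87950 (.mono .chord))))) (.splitM (.splitS (.leaf 957091390 (-8529554) 92530 (.mono .chord)) (.splitM (.leaf 939276397 (-9290804) 97897 (.mono .none)) (.leaf 939276397 (-9290804) 97897 (.mono .chord)))) (.splitS (.splitM (.leaf 957091390 (-8529554) 92530 (.mono .chord)) (.splitS (.leaf 961378992 (-4172249) 22827 (.mono .flat)) (.leaf 952850055 (-4357304) 23445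 (.mono .flat)))) (.splitM (.splitS (.leaf 943945911 (-4547509) 24115 (.mono .flat)) (.leaf 934655832 (-4743295) 24841 (.mono .flat))) (.splitS (.leaf 943945911 (-4547509) 24115 (.mono .flat)) (.leaf 934655832 (-4743295) 24841 (.mono .flat))))))))))

/-- Part of the certificate. -/
def treeC36 : Tree :=
  .splitS (.splitM (.splitS (.splitM (.leaf 1072954815 (-1049602) 262594 (.split .chord)) (.splitS (.leaf 1073545180 (-262208) 65565 (.split .chord)) (.leaf 1072495770 (-787393) 65758 (.split .chord)))) (.splitM (.leaf 1068747112 (-3161214) 265709 (.split .chord)) (.splitS (.leaf 1070393864 (-1314900) 66146 (.split .chord)) (.leaf 1067233238 (-1846314) 66735 (.split .chord))))) (.splitS (.splitM (.splitS (.leaf 1073545180 (-262208) 65565 (.split .chord)) (.leaf 1072495770 (-787393) 65758 (.split .chord))) (.splitM (.splitS (.leaf 1073545180 (-262208) 65565 (.split .chord)) (.leaf 1072495770 (-787393) 65758 (.split .chord))) (.splitS (.leaf 1073545180 (-262208) 65565 (.split .chord)) (.leaf 1072495770 (-787393) 65758 (.split .chord))))) (.splitM (.splitS (.leaf 1070393864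 (-1314900) 66146 (.split .chord)) (.splitM (.leaf 1067233238 (-1846314) 66735 (.split .chord)) (.leaf 1067233238 (-1846314) 66735 (.split .chord)))) (.splitS (.splitM (.leaf 1070393864 (-1314900) 66146 (.split .chord)) (.leaf 1070393864 (-1314900) 66146 (.split .flat))) (.splitM (.leaf 1067233238 (-1846314) 66735 (.split .chord)) (.leaf 1067233238 (-1846314) 66735 (.split .flat))))))) (.splitM (.splitS (.splitM (.splitS (.leaf 1063004445 (-2383278) 67535 (.split .chord)) (.leaf 1057694665 (-2927522) 68557 (.split .chord))) (.splitS (.leaf 1063004445 (-2383278) 67535 (.split .chord)) (.leaf 1057694665 (-2927522) 68557 (.split .chord)))) (.splitM (.splitS (.leaf 1051287512 (-3480891) 69818 (.split .chord)) (.leaf 1043762765 (-4045376) 71339 (.split .flat))) (.splitS (.leaf 1051287512 (-3480891) 69818 (.split .chord)) (.leaf 1043762765 (-4045376) 71339 (.split .chord))))) (.splitS (.splitM (.splitS (.splitM (.leaf 1063004445 (-2383278) 67535 (.split .chord)) (.leaf 1063004445 (-2383278) 67535 (.split .chord))) (.splitM (.leaf 1057694665 (-2927522) 68557 (.split .flat))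 (.leaf 1057694665 (-2927522) 68557 (.split .flat)))) (.splitS (.splitM (.leaf 1063004445 (-2383278) 67535 (.split .flat)) (.leaf 1063004445 (-2383278) 67535 (.split .flat))) (.splitM (.leaf 1057694665 (-2927522) 68557 (.split .flat)) (.leaf 1057694665 (-2927522) 68557 (.split .flat))))) (.splitM (.splitS (.splitM (.leaf 1051287512 (-3480891) 69818 (.split .flat)) (.leaf 1051287512 (-3480891) 69818 (.split .flat))) (.splitM (.leaf 1043762765 (-4045376) 71339 (.split .flat)) (.leaf 1043762765 (-4045376) 71339 (.split .flat)))) (.splitS (.splitM (.leaf 1051287512 (-3480891) 69818 (.split .flat)) (.leaf 1051287512 (-3480891) 69818 (.split .flat))) (.splitM (.leaf 1043762765 (-4045376) 71339 (.split .flat)) (.leaf 1043762765 (-4045376) 71339 (.split .flat)))))))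

/-- Part of the certificate. -/
def treeC18 : Tree :=
  .splitM (treeC36) (.splitS (.splitM (.splitS (.splitM (.splitM (.leaf 1072954815 (-1049602) 262594 (.split .chord)) (.leaf 1072954815 (-1049602) 262594 (.split .chord))) (.splitS (.leaf 1073545180 (-262208) 65565 (.split .flat)) (.leaf 1072495770 (-787393) 65758 (.split .flat)))) (.splitM (.splitS (.leaf 1070393864 (-1314900) 66146 (.split .chord)) (.splitM (.leaf 1067233238 (-1846314) 66735 (.split .flat)) (.leaf 1067233238 (-1846314) 66735 (.split .flat)))) (.splitS (.leaf 1070393864 (-1314900) 66146 (.split .flat)) (.leaf 1067233238 (-1846314) 66735 (.split .flat))))) (.splitM (.splitS (.leaf 1072954815 (-1049602) 262594 (.split .flat)) (.leaf 1068747112 (-3161214) 265709 (.split .flat))) (.leaf 1070586818 (-4210817) 1055812 (.volume .flat)))) (.splitM (.splitS (.splitM (.splitS (.leaf 1063004445 (-2383278) 67535 (.split .flat)) (.leaf 1057694665 (-2927522) 68557 (.split .flat))) (.splitS (.leaf 1063004445 (-2383278) 67535 (.split .flat)) (.leaf 1057694665 (-2927522) 68557 (.split .flat)))) (.splitM (.splitS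 (.leaf 1051287512 (-3480891) 69818 (.split .flat)) (.leaf 1043762765 (-4045376) 71339 (.split .flat))) (.splitS (.leaf 1051287512 (-3480891) 69818 (.volume .flat)) (.leaf 1043762765 (-4045376) 71339 (.volume .flat))))) (.splitS (.leaf 1060281512 (-5310801) 272125 (.volume .flat)) (.leaf 1047454564 (-7526267) 282247 (.volume .flat)))))

/-- Part of the certificate. -/
def treeC77 : Tree :=
  .splitM (.splitS (.splitM (.splitS (.splitM (.splitS (.leaf 991929898 (-3476193) 20782 (.mono .flat)) (.leaf 984809919 (-3644239) 21236 (.mono .flat))) (.splitS (.leaf 991929898 (-3476193) 20782 (.mono .flat)) (.leaf 984809919 (-3644239) 21236 (.mono .flat)))) (.splitM (.splitS (.leaf 977350109 (-3816059) 21726 (.mono .flat)) (.leaf 969542624 (-3991953) 22255 (.mono .flat))) (.splitS (.leaf 977350109 (-3816059) 21726 (.mono .flat)) (.leaf 969542624 (-3991953) 22255 (.mono .flat))))) (.splitS (.splitM (.splitS (.leaf 991929898 (-3476193) 20782 (.mono .flat)) (.leaf 984809919 (-3644239) 21236 (.mono .flat))) (.splitS (.leaf 991929898 (-3476193) 20782 (.mono .flat)) (.leaf 984809919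 (-3644239) 21236 (.mono .flat)))) (.splitM (.splitS (.leaf 977350109 (-3816059) 21726 (.mono .flat)) (.leaf 969542624 (-3991953) 22255 (.mono .flat))) (.splitS (.leaf 977350109 (-3816059) 21726 (.mono .flat)) (.leaf 969542624 (-3991953) 22255 (.mono .flat)))))) (.splitM (.splitS (.splitM (.splitS (.leaf 961378992 (-4172249) 22827 (.mono .flat)) (.leaf 952850055 (-4357304) 23445 (.mono .flat))) (.splitS (.leaf 961378992 (-4172249) 22827 (.mono .flat)) (.leaf 952850055 (-4357304) 23445 (.mono .flat)))) (.splitM (.splitS (.leaf 943945911 (-4547509) 24115 (.mono .flat)) (.leaf 934655832 (-4743295) 24841 (.mono .flat))) (.splitS (.leaf 943945911 (-4547509) 24115 (.mono .flat)) (.leaf 934655832 (-4743295) 24841 (.mono .flat))))) (.splitS (.splitM (.splitS (.leaf 961378992 (-4172249) 22827 (.mono .flat)) (.leaf 952850055 (-4357304) 23445 (.mono .flat))) (.splitS (.leaf 961378992 (-4172249) 22827 (.mono .flat)) (.leaf 952850055 (-4357304) 23445 (.mono .flat)))) (.splitM (.splitS (.leaf 943945911 (-4547509) 24115 (.mono .flat)) (.leaf 934655832 (-4743295) 24841 (.mono .flat)))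 (.splitS (.leaf 943945911 (-4547509) 24115 (.mono .flat)) (.leaf 934655832 (-4743295) 24841 (.mono .flat))))))) (.splitS (.splitM (.splitS (.splitM (.splitS (.leaf 991929898 (-3476193) 20782 (.mono .flat)) (.leaf 984809919 (-3644239) 21236 (.mono .flat))) (.leaf 988348902 (-7120433) 84025 (.mono .flat))) (.splitM (.splitS (.leaf 977350109 (-3816059) 21726 (.mono .flat)) (.leaf 969542624 (-3991953) 22255 (.mono .flat))) (.leaf 973424379 (-7808013) 87950 (.mono .flat)))) (.splitS (.splitM (.leaf 988348902 (-7120433) 84025 (.mono .flat)) (.leaf 988348902 (-7120433) 84025 (.mono .flat))) (.splitM (.leaf 973424379 (-7808013) 87950 (.mono .flat)) (.leaf 973424379 (-7808013) 87950 (.mono .flat))))) (.splitM (.splitS (.splitM (.leaf 957091390 (-8529554) 92530 (.mono .flat)) (.leaf 957091390 (-8529554) 92530 (.mono .flat))) (.splitM (.leaf 939276397 (-9290804) 97897 (.mono .flat)) (.leaf 939276397 (-9290804) 97897 (.mono .flat)))) (.splitS (.splitM (.leaf 957091390 (-8529554) 92530 (.mono .flat)) (.leaf 957091390 (-8529554) 92530 (.mono .flat))) (.leaf 939276397 (-9290804)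 97897 (.mono .flat)))))

/-- Part of the certificate. -/
def treeC38 : Tree :=
  .splitS (.splitM (.splitS (.splitM (.splitS (.leaf 1035096038 (-4623157) 73147 (.split .flat)) (.leaf 1025258352 (-5216653) 75272 (.mono .chord))) (.splitS (.splitM (.leaf 1035096038 (-4623157) 73147 (.mono .flat)) (.leaf 1035096038 (-4623157) 73147 (.mono .flat))) (.splitM (.leaf 1025258352 (-5216653) 75272 (.mono .flat)) (.leaf 1025258352 (-5216653) 75272 (.mono .flat))))) (.splitM (.splitS (.splitM (.leaf 1014215614 (-5828570) 77759 (.mono .flat)) (.leaf 1014215614 (-5828570) 77759 (.mono .flat))) (.splitM (.leaf 1001927952 (-6461986) 80655 (.mono .flat)) (.splitS (.leaf 1005178914 (-3150340) 19971 (.mono .flat)) (.leaf 998717317 (-3311645) 20361 (.mono .flat))))) (.splitS (.splitM (.leaf 1014215614 (-5828570) 77759 (.mono .flat)) (.leaf 1014215614 (-5828570) 77759 (.mono .flat))) (.splitM (.splitS (.leaf 1005178914 (-3150340) 19971 (.mono .flat)) (.leaf 998717317 (-3311645) 20361 (.mono .flat))) (.splitS (.leaf 1005178914 (-3150340) 19971 (.mono .flat)) (.leaf 998717317 (-3311645)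 20361 (.mono .flat))))))) (.splitS (.splitM (.splitS (.splitM (.leaf 1035096038 (-4623157) 73147 (.mono .flat)) (.leaf 1035096038 (-4623157) 73147 (.mono .flat))) (.splitM (.leaf 1025258352 (-5216653) 75272 (.mono .flat)) (.leaf 1025258352 (-5216653) 75272 (.mono .flat)))) (.splitS (.splitM (.leaf 1035096038 (-4623157) 73147 (.mono .flat)) (.leaf 1035096038 (-4623157) 73147 (.mono .flat))) (.splitM (.leaf 1025258352 (-5216653) 75272 (.mono .flat)) (.leaf 1025258352 (-5216653) 75272 (.mono .flat))))) (.splitM (.splitS (.splitM (.leaf 1014215614 (-5828570) 77759 (.mono .flat)) (.leaf 1014215614 (-5828570) 77759 (.mono .flat))) (.splitM (.splitS (.leaf 1005178914 (-3150340) 19971 (.mono .flat)) (.leaf 998717317 (-3311645) 20361 (.mono .flat))) (.leaf 1001927952 (-6461986) 80655 (.mono .flat)))) (.splitS (.splitM (.leaf 1014215614 (-5828570) 77759 (.mono .flat)) (.leaf 1014215614 (-5828570) 77759 (.mono .flat))) (.splitM (.leaf 1001927952 (-6461986) 80655 (.mono .flat)) (.leaf 1001927952 (-6461986) 80655 (.mono .flat))))))) (treeC77)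

/-- Part of the certificate. -/
def treeC19 : Tree :=
  .splitM (treeC38) (.splitS (.splitM (.splitM (.splitS (.splitS (.leaf 1035096038 (-4623157) 73147 (.mono .flat)) (.leaf 1025258352 (-5216653) 75272 (.mono .flat))) (.splitS (.leaf 1014215614 (-5828570) 77759 (.mono .flat)) (.leaf 1001927952 (-6461986) 80655 (.mono .flat)))) (.leaf 1018741199 (-22130369) 1225519 (.volume .flat))) (.leaf 1018741199 (-22130369) 1225519 (.volume .flat))) (.splitM (.splitM (.splitS (.splitS (.leaf 988348902 (-7120433) 84025 (.mono .flat)) (.leaf 973424379 (-7808013) 87950 (.mono .flat))) (.splitS (.leaf 957091390 (-8529554) 92530 (.mono .flat)) (.leaf 939276397 (-9290804) 97897 (.mono .flat)))) (.leaf 964082877 (-32748807) 1446374 (.volume .flat))) (.leaf 964082877 (-32748807) 1446374 (.volume .flat))))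

/-- Part of the certificate. -/
def treeC9 : Tree :=
  .splitS (treeC18) (treeC19)

/-- Part of the certificate. -/
def treeC4 : Tree :=
  .splitM (treeC8) (treeC9)

/-- Part of the certificate. -/
def treeC41 : Tree :=
  .splitS (.splitM (.splitS (.splitM (.leaf 909258835 (-21060435) 431576 (.mono .none)) (.splitS (.leaf 919893211 (-10098700) 104217 (.mono .none)) (.leaf 898840272 (-10961734) 111714 (.mono .chord)))) (.splitM (.splitS (.leaf 875997048 (-11890461) 120686 (.mono .none)) (.leaf 851219208 (-12898229) 131537 (.mono .none))) (.splitS (.splitM (.leaf 875997048 (-11890461) 120686 (.mono .none)) (.leaf 875997048 (-11890461) 120686 (.mono .chord))) (.splitM (.leaf 851219208 (-12898229) 131537 (.mono .chord)) (.leaf 851219208 (-12898229) 131537 (.mono .chord)))))) (.splitS (.splitM (.splitS (.splitM (.leaf 919893211 (-10098700) 104217 (.mono .chord)) (.splitS (.leaf 924968188 (-4945137) 25630 (.mono .flat)) (.leaf 914870345 (-5153563) 26488 (.mono .flat)))) (.splitM (.leaf 898840272 (-10961734) 111714 (.mono .chord)) (.splitS (.leaf 904348558 (-5369158)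 27423 (.mono .flat)) (.leaf 893387845 (-5592576) 28445 (.mono .flat))))) (.splitS (.splitM (.splitS (.leaf 924968188 (-4945137) 25630 (.mono .flat)) (.leaf 914870345 (-5153563) 26488 (.mono .flat))) (.splitS (.leaf 924968188 (-4945137) 25630 (.mono .flat)) (.leaf 914870345 (-5153563) 26488 (.mono .flat)))) (.splitM (.splitS (.leaf 904348558 (-5369158) 27423 (.mono .flat)) (.leaf 893387845 (-5592576) 28445 (.mono .flat))) (.splitS (.leaf 904348558 (-5369158) 27423 (.mono .flat)) (.leaf 893387845 (-5592576) 28445 (.mono .flat)))))) (.splitM (.splitS (.splitM (.splitS (.leaf 881971836 (-5824551) 29564 (.mono .flat)) (.leaf 870082603 (-6065909) 30793 (.mono .flat))) (.splitS (.leaf 881971836 (-5824551) 29564 (.mono .flat)) (.leaf 870082603 (-6065909) 30793 (.mono .flat)))) (.splitM (.splitS (.leaf 857700460 (-6317585) 32146 (.mono .flat)) (.leaf 844803726 (-6580643) 33641 (.mono .flat))) (.splitS (.leaf 857700460 (-6317585) 32146 (.mono .flat)) (.leaf 844803726 (-6580643) 33641 (.mono .flat))))) (.splitS (.splitM (.splitS (.leaf 881971836 (-5824551) 29564 (.mono .flat))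 (.leaf 870082603 (-6065909) 30793 (.mono .flat))) (.splitS (.leaf 881971836 (-5824551) 29564 (.mono .flat)) (.leaf 870082603 (-6065909) 30793 (.mono .flat)))) (.splitM (.splitS (.leaf 857700460 (-6317585) 32146 (.mono .flat)) (.leaf 844803726 (-6580643) 33641 (.mono .flat))) (.splitS (.leaf 857700460 (-6317585) 32146 (.mono .flat)) (.leaf 844803726 (-6580643) 33641 (.mono .flat)))))))) (.splitM (.splitS (.splitM (.splitS (.leaf 824332030 (-14002248) 144837 (.mono .chord)) (.splitM (.leaf 795121141 (-15225203) 161401 (.mono .none)) (.leaf 795121141 (-15225203) 161401 (.mono .chord)))) (.splitS (.splitM (.leaf 824332030 (-14002248) 144837 (.mono .chord)) (.splitS (.leaf 831368441 (-6856298) 35298 (.mono .flat)) (.leaf 817368037 (-7145949) 37143 (.mono .flat)))) (.splitM (.leaf 795121141 (-15225203) 161401 (.mono .chord)) (.splitS (.leaf 802772934 (-7451216) 39207 (.mono .flat)) (.leaf 787550048 (-7773986) 41525 (.mono .flat)))))) (.splitM (.splitS (.splitM (.leaf 763319196 (-16597776) 182437 (.mono .none)) (.leaf 763319196 (-16597776) 182437 (.mono .chord))) (.splitM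 (.leaf 728586030 (-18162761) 209810 (.mono .chord)) (.leaf 728586030 (-18162761) 209810 (.mono .chord)))) (.splitS (.splitM (.splitS (.leaf 771662205 (-8116473) 44143 (.mono .flat)) (.leaf 755067403 (-8481302) 47118 (.mono .flat))) (.splitS (.leaf 771662205 (-8116473) 44143 (.mono .flat)) (.leaf 755067403 (-8481302) 47118 (.mono .flat)))) (.splitM (.splitS (.leaf 737717900 (-8871604) 50522 (.mono .flat)) (.leaf 719559060 (-9291157) 54444 (.mono .flat))) (.leaf 728586030 (-18162761) 209810 (.mono .flat)))))) (.splitS (.splitM (.splitS (.splitM (.splitS (.leaf 831368441 (-6856298) 35298 (.mono .flat)) (.leaf 817368037 (-7145949) 37143 (.mono .flat))) (.splitS (.leaf 831368441 (-6856298) 35298 (.mono .flat)) (.leaf 817368037 (-7145949) 37143 (.mono .flat)))) (.splitM (.splitS (.leaf 802772934 (-7451216) 39207 (.mono .flat)) (.leaf 787550048 (-7773986) 41525 (.mono .flat))) (.splitS (.leaf 802772934 (-7451216) 39207 (.mono .flat)) (.leaf 787550048 (-7773986) 41525 (.mono .flat))))) (.splitS (.splitM (.splitS (.leaf 831368441 (-6856298) 35298 (.mono .flat)) (.leaf 817368037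 (-7145949) 37143 (.mono .flat))) (.leaf 824332030 (-14002248) 144837 (.mono .flat))) (.splitM (.leaf 795121141 (-15225203) 161401 (.mono .flat)) (.leaf 795121141 (-15225203) 161401 (.mono .flat))))) (.splitM (.splitS (.splitM (.leaf 763319196 (-16597776) 182437 (.mono .flat)) (.leaf 763319196 (-16597776) 182437 (.mono .flat))) (.splitM (.leaf 728586030 (-18162761) 209810 (.mono .flat)) (.leaf 728586030 (-18162761) 209810 (.mono .flat)))) (.splitS (.splitM (.leaf 763319196 (-16597776) 182437 (.mono .flat)) (.leaf 763319196 (-16597776) 182437 (.mono .flat))) (.leaf 728586030 (-18162761) 209810 (.mono .flat))))))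

/-- Part of the certificate. -/
def treeC20 : Tree :=
  .splitM (.splitS (.splitM (.leaf 885903944 (-45849126) 1865376 (.split .none)) (.splitS (.leaf 909258835 (-21060435) 431576 (.mono .none)) (.leaf 863482121 (-24788690) 503989 (.mono .none)))) (.splitM (.splitS (.leaf 809573667 (-29227452) 611678 (.mono .none)) (.leaf 745756916 (-34760538) 782919 (.mono .none))) (.splitS (.splitM (.leaf 809573667 (-29227452) 611678 (.mono .none)) (.leaf 809573667 (-29227452) 611678 (.mono .none))) (.splitM (.leaf 745756916 (-34760538) 782919 (.mono .none)) (.splitS (.leaf 763319196 (-16597776) 182437 (.mono .none)) (.leaf 728586030 (-18162761) 209810 (.mono .none))))))) (treeC41)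

/-- Part of the certificate. -/
def treeC43 : Tree :=
  .splitS (.splitS (.splitM (.splitM (.splitS (.splitM (.leaf 690477890 (-19982102) 246534 (.mono .chord)) (.leaf 690477890 (-19982102) 246534 (.mono .chord))) (.splitM (.leaf 648397310 (-22149720) 297778 (.mono .flat)) (.leaf 648397310 (-22149720) 297778 (.mono .flat)))) (.splitS (.splitM (.leaf 690477890 (-19982102) 246534 (.mono .flat)) (.leaf 690477890 (-19982102) 246534 (.mono .flat))) (.splitM (.leaf 648397310 (-22149720) 297778 (.mono .flat)) (.leaf 648397310 (-22149720) 297778 (.mono .flat))))) (.splitM (.splitS (.splitM (.leaf 690477890 (-19982102) 246534 (.mono .flat)) (.leaf 690477890 (-19982102) 246534 (.mono .flat))) (.leaf 648397310 (-22149720) 297778 (.mono .flat))) (.splitS (.leaf 690477890 (-19982102) 246534 (.mono .flat)) (.leaf 648397310 (-22149720) 297778 (.mono .flat))))) (.splitM (.splitS (.splitM (.splitM (.leaf 601506171 (-24816758) 373118 (.mono .flat)) (.leaf 601506171 (-24816758) 373118 (.mono .flat))) (.leaf 601506171 (-24816758) 373118 (.mono .flat))) (.splitM (.splitM (.leaf 548561885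 (-28246634) 492226 (.mono .flat)) (.leaf 548561885 (-28246634) 492226 (.mono .flat))) (.leaf 548561885 (-28246634) 492226 (.mono .flat)))) (.splitS (.splitM (.leaf 601506171 (-24816758) 373118 (.mono .flat)) (.splitS (.leaf 614002030 (-12035420) 87640 (.mono .flat)) (.splitM (.leaf 589196818 (-12781337) 99186 (.mono .flat)) (.leaf 589196818 (-12781337) 99186 (.mono .flat))))) (.splitM (.splitS (.leaf 562798693 (-13631418) 113817 (.mono .flat)) (.splitM (.leaf 534571071 (-14615216) 132830 (.mono .flat)) (.leaf 534571071 (-14615216) 132830 (.mono .flat)))) (.splitS (.splitM (.leaf 562798693 (-13631418) 113817 (.mono .flat)) (.splitS (.splitM (.leaf 569641819 (-6701909) 27435 (.mono .flat)) (.leaf 569641819 (-6701909) 27435 (.mono .half))) (.splitM (.leaf 556012468 (-6929508) 29502 (.mono .half)) (.leaf 556012468 (-6929508) 29502 (.mono .half))))) (.splitM (.splitS (.splitM (.leaf 541910520 (-7174803) 31867 (.mono .flat)) (.leaf 541910520 (-7174803) 31867 (.mono .chord))) (.splitM (.leaf 527298027 (-7440412) 34590 (.mono .chord)) (.leaf 527298027 (-7440412) 34590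 (.mono .none)))) (.splitS (.splitM (.leaf 541910520 (-7174803) 31867 (.mono .half)) (.leaf 541910520 (-7174803) 31867 .out)) (.leaf 527298027 (-7440412) 34590 .out)))))))) (.splitS (.splitM (.splitS (.splitM (.leaf 487571420 (-32953541) 701937 (.mono .flat)) (.splitS (.leaf 504205716 (-15775635) 158328 (.mono .flat)) (.splitM (.leaf 471287769 (-17177905) 193922 (.mono .none)) (.leaf 471287769 (-17177905) 193922 (.mono .none))))) (.splitM (.splitM (.leaf 414923956 (-40134800) 1142815 (.mono .none)) (.leaf 414923956 (-40134800) 1142815 (.mono .chord))) (.splitS (.splitM (.leaf 435234995 (-18927257) 246312 (.mono .none)) (.leaf 435234995 (-18927257) 246312 (.mono .none))) (.leaf 395183164 (-21207542) 329281 (.mono .none))))) (.splitS (.splitM (.splitS (.splitM (.leaf 504205716 (-15775635) 158328 (.mono .flat)) (.splitM (.leaf 504205716 (-15775635) 158328 (.mono .chord)) (.leaf 504205716 (-15775635) 158328 (.mono .half)))) (.splitM (.leaf 471287769 (-17177905) 193922 (.mono .none)) (.leaf 471287769 (-17177905) 193922 (.mono .none)))) (.splitS (.splitM (.splitS (.leaf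 512131251 (-7729529) 37756 (.mono .none)) (.leaf 496359331 (-8046106) 41472 .out)) (.leaf 504205716 (-15775635) 158328 .out)) (.leaf 471287769 (-17177905) 193922 .out))) (.splitS (.leaf 435234995 (-18927257) 246312 .out) (.leaf 395183164 (-21207542) 329281 .out)))) (.splitS (.splitM (.splitM (.splitS (.leaf 349743563 (-24378475) 475698 (.mono .none)) (.leaf 296394099 (-29279671) 784381 (.mono .none))) (.leaf 322455865 (-53658146) 2467672 .out)) (.leaf 322455865 (-53658146) 2467672 .out)) (.splitM (.splitS (.leaf 229414957 (-38630212) 1715123 .out) (.leaf 118307901 (-94534811) 23773090 .out)) (.leaf 166851562 (-133165023) 33686539 .out))))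

/-- Part of the certificate. -/
def treeC21 : Tree :=
  .splitM (.splitS (.splitS (.splitM (.splitM (.leaf 669166520 (-42131823) 1084885 (.mono .none)) (.leaf 669166520 (-42131823) 1084885 (.mono .none))) (.splitM (.splitS (.leaf 690477890 (-19982102) 246534 (.mono .none)) (.leaf 648397310 (-22149720) 297778 (.mono .none))) (.splitS (.leaf 690477890 (-19982102) 246534 (.mono .chord)) (.leaf 648397310 (-22149720) 297778 (.mono .chord))))) (.splitM (.splitM (.leaf 574605018 (-53063393) 1718600 (.mono .none)) (.leaf 574605018 (-53063393) 1718600 (.mono .none))) (.splitS (.splitM (.leaf 601506171 (-24816758) 373118 (.mono .none)) (.leaf 601506171 (-24816758) 373118 (.mono .chord))) (.splitM (.leaf 548561885 (-28246634) 492226 (.mono .none)) (.leaf 548561885 (-28246634) 492226 (.mono .chord)))))) (.splitS (.splitM (.splitS (.leaf 487571420 (-32953541) 701937 (.mono .none)) (.leaf 414923956 (-40134800) 1142815 (.mono .none))) (.splitS (.splitM (.leaf 487571420 (-32953541) 701937 (.mono .none)) (.leaf 487571420 (-32953541) 701937 (.mono .chord))) (.splitM (.leaf 414923956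 (-40134800) 1142815 (.mono .none)) (.leaf 414923956 (-40134800) 1142815 (.mono .flat))))) (.splitS (.splitM (.splitM (.leaf 322455865 (-53658146) 2467672 (.mono .none)) (.leaf 322455865 (-53658146) 2467672 (.mono .none))) (.splitS (.leaf 349743563 (-24378475) 475698 (.mono .none)) (.leaf 296394099 (-29279671) 784381 (.mono .none)))) (.splitM (.splitS (.leaf 229414957 (-38630212) 1715123 (.mono .none)) (.splitM (.splitM (.leaf 118307901 (-94534811) 23773090 (.mono .none)) (.leaf 118307901 (-94534811) 23773090 (.mono .none))) (.splitS (.leaf 162714948 (-27557147) 1202474 (.mono .none)) (.leaf 83771296 (-66977663) 16793633 (.mono .none))))) (.splitS (.splitM (.leaf 229414957 (-38630212) 1715123 (.mono .none)) (.leaf 229414957 (-38630212) 1715123 (.mono .none))) (.splitM (.splitS (.leaf 162714948 (-27557147) 1202474 (.mono .none)) (.splitM (.leaf 83771296 (-66977663) 16793633 (.mono .none)) (.leaf 83771296 (-66977663) 16793633 .out))) (.leaf 118307901 (-94534811) 23773090 .out))))))) (treeC43)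

/-- Part of the certificate. -/
def treeC10 : Tree :=
  .splitS (treeC20) (treeC21)

/-- Part of the certificate. -/
def treeC44 : Tree :=
  .splitS (.splitM (.splitS (.splitM (.splitS (.splitM (.splitS (.leaf 924968188 (-4945137) 25630 (.mono .flat)) (.leaf 914870345 (-5153563) 26488 (.mono .flat))) (.splitS (.leaf 924968188 (-4945137) 25630 (.mono .flat)) (.leaf 914870345 (-5153563) 26488 (.mono .flat)))) (.splitM (.splitS (.leaf 904348558 (-5369158) 27423 (.mono .flat)) (.leaf 893387845 (-5592576) 28445 (.mono .flat))) (.splitS (.leaf 904348558 (-5369158) 27423 (.mono .flat)) (.leaf 893387845 (-5592576) 28445 (.mono .flat))))) (.splitS (.splitM (.splitS (.leaf 924968188 (-4945137) 25630 (.mono .flat)) (.leaf 914870345 (-5153563) 26488 (.mono .flat))) (.leaf 919893211 (-10098700) 104217 (.mono .flat))) (.splitM (.leaf 898840272 (-10961734) 111714 (.mono .flat)) (.leaf 898840272 (-10961734) 111714 (.mono .flat))))) (.splitM (.splitS (.splitM (.splitS (.leaf 881971836 (-5824551) 29564 (.mono .flat)) (.leaf 870082603 (-6065909) 30793 (.mono .flat))) (.leaf 875997048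 (-11890461) 120686 (.mono .flat))) (.splitM (.leaf 851219208 (-12898229) 131537 (.mono .flat)) (.leaf 851219208 (-12898229) 131537 (.mono .flat)))) (.splitS (.splitM (.leaf 875997048 (-11890461) 120686 (.mono .flat)) (.leaf 875997048 (-11890461) 120686 (.mono .flat))) (.leaf 851219208 (-12898229) 131537 (.mono .flat))))) (.splitS (.splitM (.splitS (.splitM (.leaf 919893211 (-10098700) 104217 (.mono .flat)) (.leaf 919893211 (-10098700) 104217 (.mono .flat))) (.leaf 898840272 (-10961734) 111714 (.mono .flat))) (.splitS (.leaf 919893211 (-10098700) 104217 (.mono .flat)) (.leaf 898840272 (-10961734) 111714 (.mono .flat)))) (.splitM (.splitS (.leaf 875997048 (-11890461) 120686 (.mono .flat)) (.leaf 851219208 (-12898229) 131537 (.mono .flat))) (.splitS (.leaf 875997048 (-11890461) 120686 (.mono .flat)) (.leaf 851219208 (-12898229) 131537 (.mono .flat)))))) (.splitM (.splitS (.splitM (.splitS (.splitM (.leaf 824332030 (-14002248) 144837 (.mono .flat)) (.leaf 824332030 (-14002248) 144837 (.mono .flat))) (.splitM (.leaf 795121141 (-15225203) 161401 (.mono .flat)) (.leaf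 795121141 (-15225203) 161401 (.mono .flat)))) (.splitS (.leaf 824332030 (-14002248) 144837 (.mono .flat)) (.leaf 795121141 (-15225203) 161401 (.mono .flat)))) (.splitM (.splitS (.leaf 763319196 (-16597776) 182437 (.mono .flat)) (.leaf 728586030 (-18162761) 209810 (.mono .flat))) (.splitS (.leaf 763319196 (-16597776) 182437 (.mono .flat)) (.leaf 728586030 (-18162761) 209810 (.mono .flat))))) (.splitS (.splitM (.splitS (.leaf 824332030 (-14002248) 144837 (.mono .flat)) (.leaf 795121141 (-15225203) 161401 (.mono .flat))) (.splitS (.leaf 824332030 (-14002248) 144837 (.mono .flat)) (.leaf 795121141 (-15225203) 161401 (.mono .flat)))) (.splitM (.splitS (.leaf 763319196 (-16597776) 182437 (.mono .flat)) (.leaf 728586030 (-18162761) 209810 (.mono .flat))) (.splitS (.leaf 763319196 (-16597776) 182437 (.mono .flat)) (.splitM (.leaf 728586030 (-18162761) 209810 (.mono .flat)) (.leaf 728586030 (-18162761) 209810 (.mono .chord)))))))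

/-- Part of the certificate. -/
def treeC22 : Tree :=
  .splitM (treeC44) (.splitS (.splitS (.splitM (.splitM (.splitS (.leaf 919893211 (-10098700) 104217 (.mono .flat)) (.leaf 898840272 (-10961734) 111714 (.mono .flat))) (.leaf 909258835 (-21060435) 431576 (.mono .flat))) (.leaf 909258835 (-21060435) 431576 (.volume .flat))) (.splitM (.splitM (.leaf 863482121 (-24788690) 503989 (.mono .flat)) (.leaf 863482121 (-24788690) 503989 (.mono .flat))) (.splitM (.leaf 863482121 (-24788690) 503989 (.mono .flat)) (.leaf 863482121 (-24788690) 503989 (.mono .flat))))) (.splitS (.splitM (.splitS (.splitM (.leaf 824332030 (-14002248) 144837 (.mono .flat)) (.leaf 824332030 (-14002248) 144837 (.mono .flat))) (.splitM (.leaf 795121141 (-15225203) 161401 (.mono .flat)) (.leaf 795121141 (-15225203) 161401 (.mono .flat)))) (.splitM (.splitS (.leaf 824332030 (-14002248) 144837 (.mono .flat)) (.leaf 795121141 (-15225203) 161401 (.mono .none))) (.splitS (.leaf 824332030 (-14002248) 144837 (.mono .none)) (.leaf 795121141 (-15225203) 161401 .out)))) (.splitM (.splitM (.splitS (.splitM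 (.leaf 763319196 (-16597776) 182437 (.mono .flat)) (.leaf 763319196 (-16597776) 182437 (.mono .flat))) (.splitM (.leaf 728586030 (-18162761) 209810 (.mono .none)) (.leaf 728586030 (-18162761) 209810 .out))) (.splitS (.leaf 763319196 (-16597776) 182437 (.mono .chord)) (.leaf 728586030 (-18162761) 209810 .out))) (.leaf 745756916 (-34760538) 782919 .out))))

/-- Part of the certificate. -/
def treeC92 : Tree :=
  .splitS (.splitM (.splitS (.splitM (.leaf 690477890 (-19982102) 246534 (.mono .flat)) (.splitM (.leaf 690477890 (-19982102) 246534 (.mono .flat)) (.leaf 690477890 (-19982102) 246534 (.mono .flat)))) (.splitM (.splitS (.leaf 659542788 (-10777170) 70705 (.mono .flat)) (.splitM (.leaf 637400696 (-11372550) 78334 (.mono .flat)) (.leaf 637400696 (-11372550) 78334 (.mono .flat)))) (.splitS (.splitM (.leaf 659542788 (-10777170) 70705 (.mono .flat)) (.splitM (.leaf 659542788 (-10777170) 70705 (.mono .flat)) (.leaf 659542788 (-10777170) 70705 (.mono .chord)))) (.splitM (.splitS (.leaf 643106030 (-5607947) 19066 (.mono .chord)) (.splitM (.leaf 631734528 (-5764602)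 20114 (.mono .chord)) (.leaf 631734528 (-5764602) 20114 (.mono .chord)))) (.splitM (.leaf 637400696 (-11372550) 78334 (.mono .half)) (.leaf 637400696 (-11372550) 78334 .out)))))) (.splitM (.splitS (.splitM (.splitS (.leaf 700527892 (-9744569) 59004 (.mono .flat)) (.leaf 680551141 (-10237532) 64355 (.mono .chord))) (.splitS (.leaf 700527892 (-9744569) 59004 (.mono .flat)) (.leaf 680551141 (-10237532) 64355 (.mono .chord)))) (.splitM (.splitS (.leaf 659542788 (-10777170) 70705 (.mono .half)) (.leaf 637400696 (-11372550) 78334 .out)) (.leaf 648397310 (-22149720) 297778 .out))) (.splitS (.splitM (.splitS (.leaf 700527892 (-9744569) 59004 (.mono .none)) (.leaf 680551141 (-10237532) 64355 .out)) (.leaf 690477890 (-19982102) 246534 .out)) (.leaf 648397310 (-22149720) 297778 .out)))) (.splitM (.splitS (.splitM (.splitS (.splitM (.leaf 614002030 (-12035420) 87640 (.mono .flat)) (.splitS (.splitM (.leaf 620041004 (-5930080) 21273 (.mono .flat)) (.leaf 620041004 (-5930080) 21273 (.mono .chord))) (.splitM (.leaf 608006872 (-6105340) 22562 (.mono .chord)) (.leaf 608006872 (-6105340)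 22562 (.mono .half))))) (.splitM (.splitS (.splitM (.leaf 595611474 (-6291494) 24000 (.mono .flat)) (.splitM (.leaf 595611474 (-6291494) 24000 (.mono .flat)) (.leaf 595611474 (-6291494) 24000 (.mono .chord)))) (.splitM (.splitM (.leaf 582831751 (-6489842) 25614 (.mono .flat)) (.leaf 582831751 (-6489842) 25614 (.mono .chord))) (.splitM (.leaf 582831751 (-6489842) 25614 (.mono .half)) (.leaf 582831751 (-6489842) 25614 (.mono .none))))) (.splitS (.splitM (.splitM (.leaf 595611474 (-6291494) 24000 (.mono .half)) (.leaf 595611474 (-6291494) 24000 (.mono .none))) (.leaf 595611474 (-6291494) 24000 .out)) (.leaf 582831751 (-6489842) 25614 .out)))) (.splitS (.splitM (.splitS (.splitM (.leaf 620041004 (-5930080) 21273 (.mono .half)) (.leaf 620041004 (-5930080) 21273 .out)) (.leaf 608006872 (-6105340) 22562 .out)) (.leaf 614002030 (-12035420) 87640 .out)) (.leaf 589196818 (-12781337) 99186 .out))) (.splitM (.splitS (.splitM (.splitS (.splitM (.leaf 569641819 (-6701909) 27435 (.mono .half)) (.leaf 569641819 (-6701909) 27435 .out)) (.leaf 556012468 (-6929508) 29502 .out)) (.leaf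 562798693 (-13631418) 113817 .out)) (.leaf 534571071 (-14615216) 132830 .out)) (.leaf 548561885 (-28246634) 492226 .out))) (.leaf 574605018 (-53063393) 1718600 .out))

/-- Part of the certificate. -/
def treeC46 : Tree :=
  .splitS (treeC92) (.splitS (.leaf 450349082 (-73088341) 3614400 .out) (.leaf 234652939 (-186823170) 47829769 .out))

/-- Part of the certificate. -/
def treeC23 : Tree :=
  .splitM (treeC46) (.splitS (.leaf 620516285 (-95195216) 5498044 .out) (.leaf 328103059 (-259911512) 68191547 .out))

/-- Part of the certificate. -/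
def treeC11 : Tree :=
  .splitS (treeC22) (treeC23)

/-- Part of the certificate. -/
def treeC5 : Tree :=
  .splitM (treeC10) (treeC11)

/-- Part of the certificate. -/
def treeC2 : Tree :=
  .splitS (treeC4) (treeC5)

/-- Part of the certificate. -/
def treeC3 : Tree :=
  .splitS (.splitM (.splitS (.splitM (.splitS (.splitM (.leaf 1070586818 (-4210817) 1055812 (.volume .flat)) (.leaf 1070586818 (-4210817) 1055812 (.volume .flat))) (.leaf 1053590894 (-12837069) 1107775 (.volume .flat))) (.leaf 1061007341 (-17047886) 4313405 (.volume .flat))) (.splitM (.splitS (.leaf 1018741199 (-22130369) 1225519 (.volume .flat)) (.splitM (.leaf 964082877 (-32748807) 1446374 (.volume .flat)) (.leaf 964082877 (-32748807) 1446374 (.volume .flat)))) (.splitS (.leaf 1018741199 (-22130369) 1225519 (.volume .flat)) (.leaf 964082877 (-32748807) 1446374 (.volume .chord))))) (.splitS (.splitM (.leaf 1061007341 (-17047886) 4313405 (.volume .flat)) (.leaf 1061007341 (-17047886) 4313405 (.volume .flat))) (.splitM (.leaf 990080155 (-54879176) 5313283 (.volume .half)) (.leaf 990080155 (-54879176)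 5313283 (.volume .chord))))) (.splitM (.splitS (.splitM (.splitS (.splitM (.splitS (.leaf 909258835 (-21060435) 431576 (.volume .flat)) (.splitM (.leaf 863482121 (-24788690) 503989 (.mono .chord)) (.leaf 863482121 (-24788690) 503989 (.mono .chord)))) (.leaf 885903944 (-45849126) 1865376 (.volume .none))) (.splitM (.splitM (.leaf 776972685 (-63987991) 2771235 (.volume .none)) (.leaf 776972685 (-63987991) 2771235 .out)) (.leaf 776972685 (-63987991) 2771235 .out))) (.splitS (.leaf 885903944 (-45849126) 1865376 (.volume .none)) (.leaf 776972685 (-63987991) 2771235 .out))) (.leaf 453180060 (-355106729) 98073331 .out)) (.splitS (.splitM (.leaf 829159714 (-109837118) 9109137 .out) (.leaf 829159714 (-109837118) 9109137 .out)) (.leaf 453180060 (-355106729) 98073331 .out)))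

/-- Part of the certificate. -/
def treeC : Tree :=
  .splitM (treeC2) (treeC3)

set_option maxRecDepth 100000 in
theorem treeC8_check : treeC8.check parC 0 536870912 0 671088640 = true := by
  decide +kernel

set_option maxRecDepth 100000 in
theorem treeC18_check : treeC18.check parC 0 268435456 671088640 1342177280 = true := by
  decide +kernel

set_option maxRecDepth 100000 in
theorem treeC19_check : treeC19.check parC 268435456 536870912 671088640 1342177280 = true := by
  decide +kernel

theorem treeC9_check : treeC9.check parC 0 536870912 671088640 1342177280 = true :=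
  Tree.check_splitS (by norm_num) treeC18_check treeC19_check

theorem treeC4_check : treeC4.check parC 0 536870912 0 1342177280 = true :=
  Tree.check_splitM (by norm_num) treeC8_check treeC9_check

set_option maxRecDepth 100000 in
theorem treeC20_check : treeC20.check parC 536870912 805306368 0 671088640 = true := by
  decide +kernel

set_option maxRecDepth 100000 in
theorem treeC21_check : treeC21.check parC 805306368 1073741824 0 671088640 = true := by
  decide +kernel

theorem treeC10_check : treeC10.check parC 536870912 1073741824 0 671088640 = true :=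
  Tree.check_splitS (by norm_num) treeC20_check treeC21_check

set_option maxRecDepth 100000 in
theorem treeC11_check : treeC11.check parC 536870912 1073741824 671088640 1342177280 = true := by
  decide +kernel

theorem treeC5_check : treeC5.check parC 536870912 1073741824 0 1342177280 = true :=
  Tree.check_splitM (by norm_num) treeC10_check treeC11_check

theorem treeC2_check : treeC2.check parC 0 1073741824 0 1342177280 = true :=
  Tree.check_splitS (by norm_num) treeC4_check treeC5_check

set_option maxRecDepth 100000 in
theorem treeC3_check : treeC3.check parC 0 1073741824 1342177280 2684354560 = true := by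
  decide +kernel

theorem treeC_check : treeC.check parC 0 1073741824 0 2684354560 = true :=
  Tree.check_splitM (by norm_num) treeC2_check treeC3_check

end Vale.Agent.P237.Five
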