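import Vale.Agent.P237.Five.Parts

/-!
# A certificate of the stage inequality in five dimensions: the range D

`S = √(1-q²)`, `m = (q-p)/S`, in units of `2⁻³⁰`.  The partition of `[0,1] × [0,5/2]` was found by
bisection.
-/

namespace Vale.Agent.P237.Five

/-- Part of the certificate. -/
def treeD8 : Tree :=
  .splitS (.splitM (.splitS (.leaf 1070586818 (-4210817) 1055812 .small) (.splitM (.leaf 1053590894 (-12837069) 1107775 .small) (.splitS (.splitM (.leaf 1060281512 (-5310801) 272125 .small) (.leaf 1060281512 (-5310801) 272125 (.mono .none))) (.leaf 1047454564 (-7526267) 282247 (.split .none))))) (.splitS (.splitM (.splitS (.splitM (.leaf 1072954815 (-1049602) 262594 (.split .none)) (.leaf 1072954815 (-1049602) 262594 (.split .none))) (.leaf 1068747112 (-3161214) 265709 (.split .none))) (.splitS (.leaf 1072954815 (-1049602) 262594 (.split .none)) (.leaf 1068747112 (-3161214) 265709 (.split .none)))) (.splitM (.splitS (.leaf 1060281512 (-5310801) 272125 (.split .none)) (.leaf 1047454564 (-7526267) 282247 (.split .none))) (.splitS (.leaf 1060281512 (-5310801)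 272125 (.split .none)) (.leaf 1047454564 (-7526267) 282247 (.split .none)))))) (.splitM (.splitS (.splitM (.splitS (.splitM (.leaf 1030102993 (-9839811) 296755 .small) (.leaf 1030102993 (-9839811) 296755 (.mono .none))) (.leaf 1007992589 (-12290557) 316721 (.split .none))) (.leaf 1018741199 (-22130369) 1225519 (.split .none))) (.splitM (.leaf 964082877 (-32748807) 1446374 (.split .none)) (.leaf 964082877 (-32748807) 1446374 (.split .none)))) (.splitS (.splitM (.leaf 1018741199 (-22130369) 1225519 (.split .none)) (.splitS (.leaf 1030102993 (-9839811) 296755 (.mono .none)) (.leaf 1007992589 (-12290557) 316721 (.mono .none)))) (.splitM (.leaf 964082877 (-32748807) 1446374 (.split .none)) (.splitS (.leaf 980800674 (-14928447) 343811 (.mono .chord)) (.splitM (.leaf 948088715 (-17820359) 380660 (.mono .none)) (.leaf 948088715 (-17820359) 380660 (.mono .flat)))))))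

/-- Part of the certificate. -/
def treeD37 : Tree :=
  .splitS (.splitM (.splitS (.splitM (.splitS (.splitM (.leaf 1073545180 (-262208) 65565 (.split .flat)) (.leaf 1073545180 (-262208) 65565 (.split .flat))) (.splitM (.leaf 1072495770 (-787393) 65758 (.split .flat)) (.leaf 1072495770 (-787393) 65758 (.split .flat)))) (.splitS (.splitM (.leaf 1073545180 (-262208) 65565 (.split .flat)) (.leaf 1073545180 (-262208) 65565 (.split .flat))) (.splitM (.leaf 1072495770 (-787393) 65758 (.split .flat)) (.leaf 1072495770 (-787393) 65758 (.split .flat))))) (.splitM (.splitS (.splitM (.leaf 1070393864 (-1314900) 66146 (.mono .flat)) (.leaf 1070393864 (-1314900) 66146 (.mono .flat))) (.splitM (.leaf 1067233238 (-1846314) 66735 (.mono .flat)) (.leaf 1067233238 (-1846314) 66735 (.mono .flat)))) (.splitS (.splitM (.leaf 1070393864 (-1314900) 66146 (.mono .flat)) (.leaf 1070393864 (-1314900) 66146 (.mono .flat))) (.splitM (.leaf 1067233238 (-1846314) 66735 (.mono .flat)) (.leaf 1067233238 (-1846314) 66735 (.mono .flat)))))) (.splitS (.splitM (.splitM (.splitS (.leaf 1073545180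 (-262208) 65565 (.split .flat)) (.leaf 1072495770 (-787393) 65758 (.split .flat))) (.splitS (.leaf 1073545180 (-262208) 65565 (.split .flat)) (.leaf 1072495770 (-787393) 65758 (.split .flat)))) (.splitS (.leaf 1073545180 (-262208) 65565 (.split .flat)) (.leaf 1072495770 (-787393) 65758 (.split .flat)))) (.splitM (.splitS (.splitM (.leaf 1070393864 (-1314900) 66146 (.split .flat)) (.leaf 1070393864 (-1314900) 66146 (.split .flat))) (.splitM (.leaf 1067233238 (-1846314) 66735 (.mono .flat)) (.leaf 1067233238 (-1846314) 66735 (.mono .flat)))) (.splitS (.leaf 1070393864 (-1314900) 66146 (.split .flat)) (.leaf 1067233238 (-1846314) 66735 (.mono .flat)))))) (.splitM (.splitS (.splitM (.splitS (.splitM (.leaf 1063004445 (-2383278) 67535 (.mono .flat)) (.leaf 1063004445 (-2383278) 67535 (.mono .flat))) (.splitM (.leaf 1057694665 (-2927522) 68557 (.mono .flat)) (.leaf 1057694665 (-2927522) 68557 (.mono .flat)))) (.splitS (.splitM (.leaf 1063004445 (-2383278) 67535 (.mono .flat)) (.leaf 1063004445 (-2383278) 67535 (.mono .flat))) (.splitM (.leaf 1057694665 (-2927522)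 68557 (.mono .flat)) (.leaf 1057694665 (-2927522) 68557 (.mono .flat))))) (.splitM (.splitS (.splitM (.leaf 1051287512 (-3480891) 69818 (.mono .flat)) (.splitS (.leaf 1053045326 (-1670628) 17369 (.mono .flat)) (.leaf 1049564608 (-1810262) 17543 (.mono .flat)))) (.splitM (.splitS (.leaf 1045803185 (-1951349) 17733 (.mono .flat)) (.leaf 1041758016 (-2094026) 17940 (.mono .flat))) (.splitS (.leaf 1045803185 (-1951349) 17733 (.mono .flat)) (.leaf 1041758016 (-2094026) 17940 (.mono .flat))))) (.splitS (.splitM (.splitS (.leaf 1053045326 (-1670628) 17369 (.mono .flat)) (.leaf 1049564608 (-1810262) 17543 (.mono .flat))) (.leaf 1051287512 (-3480891) 69818 (.mono .flat))) (.splitM (.splitS (.leaf 1045803185 (-1951349) 17733 (.mono .flat)) (.leaf 1041758016 (-2094026) 17940 (.mono .flat))) (.leaf 1043762765 (-4045376) 71339 (.mono .flat)))))) (.splitS (.splitM (.splitS (.splitM (.leaf 1063004445 (-2383278) 67535 (.mono .flat)) (.leaf 1063004445 (-2383278) 67535 (.mono .flat))) (.splitM (.leaf 1057694665 (-2927522) 68557 (.mono .flat)) (.leaf 1057694665 (-2927522) 68557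 (.mono .flat)))) (.splitS (.leaf 1063004445 (-2383278) 67535 (.mono .flat)) (.leaf 1057694665 (-2927522) 68557 (.mono .flat)))) (.splitM (.splitS (.splitM (.leaf 1051287512 (-3480891) 69818 (.mono .flat)) (.leaf 1051287512 (-3480891) 69818 (.mono .flat))) (.splitM (.leaf 1043762765 (-4045376) 71339 (.mono .flat)) (.leaf 1043762765 (-4045376) 71339 (.mono .flat)))) (.splitS (.leaf 1051287512 (-3480891) 69818 (.mono .flat)) (.leaf 1043762765 (-4045376) 71339 (.mono .flat))))))

/-- Part of the certificate. -/
def treeD18 : Tree :=
  .splitM (.splitS (.splitM (.splitS (.leaf 1072954815 (-1049602) 262594 (.split .none)) (.leaf 1068747112 (-3161214) 265709 (.split .chord))) (.splitS (.splitM (.leaf 1072954815 (-1049602) 262594 (.split .flat)) (.splitS (.leaf 1073545180 (-262208) 65565 (.split .flat)) (.leaf 1072495770 (-787393) 65758 (.split .flat)))) (.splitM (.leaf 1068747112 (-3161214) 265709 (.split .flat)) (.splitS (.leaf 1070393864 (-1314900) 66146 (.mono .flat)) (.leaf 1067233238 (-1846314) 66735 (.mono .flat)))))) (.splitM (.splitS (.splitM (.leaf 1060281512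 (-5310801) 272125 (.mono .none)) (.leaf 1060281512 (-5310801) 272125 (.mono .flat))) (.splitM (.leaf 1047454564 (-7526267) 282247 (.mono .none)) (.leaf 1047454564 (-7526267) 282247 (.mono .flat)))) (.splitS (.splitM (.splitS (.leaf 1063004445 (-2383278) 67535 (.mono .flat)) (.leaf 1057694665 (-2927522) 68557 (.mono .flat))) (.splitS (.splitM (.leaf 1063004445 (-2383278) 67535 (.mono .flat)) (.leaf 1063004445 (-2383278) 67535 (.mono .flat))) (.splitM (.leaf 1057694665 (-2927522) 68557 (.mono .flat)) (.leaf 1057694665 (-2927522) 68557 (.mono .flat))))) (.splitM (.splitS (.leaf 1051287512 (-3480891) 69818 (.mono .flat)) (.splitM (.leaf 1043762765 (-4045376) 71339 (.mono .flat)) (.leaf 1043762765 (-4045376) 71339 (.mono .flat)))) (.splitS (.splitM (.leaf 1051287512 (-3480891) 69818 (.mono .flat)) (.leaf 1051287512 (-3480891) 69818 (.mono .flat))) (.splitM (.leaf 1043762765 (-4045376) 71339 (.mono .flat)) (.leaf 1043762765 (-4045376) 71339 (.mono .flat)))))))) (treeD37)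

/-- Part of the certificate. -/
def treeD39 : Tree :=
  .splitS (.splitM (.splitS (.splitM (.splitS (.splitM (.splitS (.leaf 1037425781 (-2238433) 18166 (.mono .flat)) (.leaf 1032802868 (-2384723) 18411 (.mono .flat))) (.splitS (.leaf 1037425781 (-2238433) 18166 (.mono .flat)) (.leaf 1032802868 (-2384723) 18411 (.mono .flat)))) (.splitM (.splitS (.leaf 1027885354 (-2533055) 18677 (.mono .flat)) (.leaf 1022668988 (-2683597) 18964 (.mono .flat))) (.splitS (.leaf 1027885354 (-2533055) 18677 (.mono .flat)) (.leaf 1022668988 (-2683597) 18964 (.mono .flat))))) (.splitS (.splitM (.splitS (.leaf 1037425781 (-2238433) 18166 (.mono .flat)) (.leaf 1032802868 (-2384723) 18411 (.mono .flat))) (.leaf 1035096038 (-4623157) 73147 (.mono .flat))) (.splitM (.leaf 1025258352 (-5216653) 75272 (.mono .flat)) (.leaf 1025258352 (-5216653) 75272 (.mono .flat))))) (.splitM (.splitS (.splitM (.splitS (.leaf 1017149172 (-2836528) 19275 (.mono .flat)) (.leaf 1011320936 (-2992041) 19610 (.mono .flat))) (.leaf 1014215614 (-5828570) 77759 (.mono .flat))) (.splitM (.leaf 1001927952 (-6461986)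 80655 (.mono .flat)) (.leaf 1001927952 (-6461986) 80655 (.mono .flat)))) (.splitS (.splitM (.leaf 1014215614 (-5828570) 77759 (.mono .flat)) (.leaf 1014215614 (-5828570) 77759 (.mono .flat))) (.splitM (.leaf 1001927952 (-6461986) 80655 (.mono .flat)) (.leaf 1001927952 (-6461986) 80655 (.mono .flat)))))) (.splitS (.splitM (.splitS (.splitM (.leaf 1035096038 (-4623157) 73147 (.mono .flat)) (.leaf 1035096038 (-4623157) 73147 (.mono .flat))) (.splitM (.leaf 1025258352 (-5216653) 75272 (.mono .flat)) (.leaf 1025258352 (-5216653) 75272 (.mono .flat)))) (.splitS (.leaf 1035096038 (-4623157) 73147 (.mono .flat)) (.leaf 1025258352 (-5216653) 75272 (.mono .flat)))) (.splitM (.splitS (.leaf 1014215614 (-5828570) 77759 (.mono .flat)) (.leaf 1001927952 (-6461986) 80655 (.mono .flat))) (.splitS (.leaf 1014215614 (-5828570) 77759 (.mono .flat)) (.leaf 1001927952 (-6461986) 80655 (.mono .flat)))))) (.splitS (.splitM (.splitM (.splitS (.splitM (.leaf 988348902 (-7120433) 84025 (.mono .flat)) (.leaf 988348902 (-7120433) 84025 (.mono .flat))) (.splitM (.leaf 973424379 (-7808013)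 87950 (.mono .flat)) (.leaf 973424379 (-7808013) 87950 (.mono .flat)))) (.splitS (.leaf 988348902 (-7120433) 84025 (.mono .flat)) (.leaf 973424379 (-7808013) 87950 (.mono .flat)))) (.splitM (.splitS (.leaf 988348902 (-7120433) 84025 (.mono .flat)) (.leaf 973424379 (-7808013) 87950 (.mono .flat))) (.leaf 980800674 (-14928447) 343811 (.mono .flat)))) (.splitM (.splitM (.splitS (.leaf 957091390 (-8529554) 92530 (.mono .flat)) (.leaf 939276397 (-9290804) 97897 (.mono .flat))) (.splitS (.leaf 957091390 (-8529554) 92530 (.mono .flat)) (.leaf 939276397 (-9290804) 97897 (.mono .flat)))) (.splitM (.leaf 948088715 (-17820359) 380660 (.mono .flat)) (.leaf 948088715 (-17820359) 380660 (.mono .flat)))))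

/-- Part of the certificate. -/
def treeD19 : Tree :=
  .splitM (.splitS (.splitM (.splitS (.splitM (.leaf 1030102993 (-9839811) 296755 (.mono .none)) (.splitS (.leaf 1035096038 (-4623157) 73147 (.mono .flat)) (.leaf 1025258352 (-5216653) 75272 (.mono .flat)))) (.splitM (.leaf 1007992589 (-12290557) 316721 (.mono .flat)) (.splitS (.leaf 1014215614 (-5828570) 77759 (.mono .flat)) (.leaf 1001927952 (-6461986) 80655 (.mono .flat))))) (.splitS (.splitM (.splitS (.splitM (.leaf 1035096038 (-4623157) 73147 (.mono .flat)) (.leaf 1035096038 (-4623157) 73147 (.mono .flat))) (.splitM (.leaf 1025258352 (-5216653) 75272 (.mono .flat)) (.leaf 1025258352 (-5216653) 75272 (.mono .flat)))) (.splitS (.splitM (.leaf 1035096038 (-4623157) 73147 (.mono .flat)) (.leaf 1035096038 (-4623157) 73147 (.mono .flat))) (.splitM (.leaf 1025258352 (-5216653) 75272 (.mono .flat)) (.leaf 1025258352 (-5216653) 75272 (.mono .flat))))) (.splitM (.splitS (.splitM (.leaf 1014215614 (-5828570) 77759 (.mono .flat)) (.leaf 1014215614 (-5828570) 77759 (.mono .flat))) (.splitM (.leaf 1001927952 (-6461986)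 80655 (.mono .flat)) (.leaf 1001927952 (-6461986) 80655 (.mono .flat)))) (.splitS (.splitM (.leaf 1014215614 (-5828570) 77759 (.mono .flat)) (.leaf 1014215614 (-5828570) 77759 (.mono .flat))) (.splitM (.leaf 1001927952 (-6461986) 80655 (.mono .flat)) (.leaf 1001927952 (-6461986) 80655 (.mono .flat))))))) (.splitM (.splitS (.splitM (.leaf 980800674 (-14928447) 343811 (.mono .flat)) (.splitS (.leaf 988348902 (-7120433) 84025 (.mono .flat)) (.leaf 973424379 (-7808013) 87950 (.mono .flat)))) (.splitM (.splitS (.leaf 957091390 (-8529554) 92530 (.mono .flat)) (.leaf 939276397 (-9290804) 97897 (.mono .flat))) (.splitS (.leaf 957091390 (-8529554) 92530 (.mono .flat)) (.leaf 939276397 (-9290804) 97897 (.mono .flat))))) (.splitS (.splitM (.splitS (.splitM (.leaf 988348902 (-7120433) 84025 (.mono .flat)) (.leaf 988348902 (-7120433) 84025 (.mono .flat))) (.leaf 973424379 (-7808013) 87950 (.mono .flat))) (.splitS (.splitM (.leaf 988348902 (-7120433) 84025 (.mono .flat)) (.leaf 988348902 (-7120433) 84025 (.mono .flat))) (.splitM (.leaf 973424379 (-7808013) 87950 (.mono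 .flat)) (.leaf 973424379 (-7808013) 87950 (.mono .flat))))) (.splitM (.splitS (.leaf 957091390 (-8529554) 92530 (.mono .flat)) (.leaf 939276397 (-9290804) 97897 (.mono .flat))) (.splitS (.leaf 957091390 (-8529554) 92530 (.mono .flat)) (.leaf 939276397 (-9290804) 97897 (.mono .flat))))))) (treeD39)

/-- Part of the certificate. -/
def treeD9 : Tree :=
  .splitS (treeD18) (treeD19)

/-- Part of the certificate. -/
def treeD4 : Tree :=
  .splitM (treeD8) (treeD9)

/-- Part of the certificate. -/
def treeD10 : Tree :=
  .splitS (.splitM (.splitS (.splitM (.leaf 885903944 (-45849126) 1865376 (.split .none)) (.leaf 885903944 (-45849126) 1865376 (.mono .none))) (.splitS (.leaf 809573667 (-29227452) 611678 (.mono .none)) (.leaf 745756916 (-34760538) 782919 (.mono .none)))) (.splitS (.splitM (.splitS (.leaf 909258835 (-21060435) 431576 (.mono .none)) (.leaf 863482121 (-24788690) 503989 (.mono .none))) (.splitS (.splitM (.leaf 909258835 (-21060435) 431576 (.mono .none)) (.leaf 909258835 (-21060435) 431576 (.mono .flat))) (.splitM (.leaf 863482121 (-24788690) 503989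 (.mono .none)) (.leaf 863482121 (-24788690) 503989 (.mono .flat))))) (.splitM (.splitS (.leaf 809573667 (-29227452) 611678 (.mono .none)) (.leaf 745756916 (-34760538) 782919 (.mono .none))) (.splitS (.splitM (.leaf 809573667 (-29227452) 611678 (.mono .none)) (.leaf 809573667 (-29227452) 611678 (.mono .flat))) (.splitM (.leaf 745756916 (-34760538) 782919 (.mono .none)) (.leaf 745756916 (-34760538) 782919 (.mono .flat))))))) (.splitM (.splitS (.splitS (.splitM (.leaf 669166520 (-42131823) 1084885 (.mono .none)) (.leaf 669166520 (-42131823) 1084885 (.mono .none))) (.splitM (.leaf 574605018 (-53063393) 1718600 (.mono .none)) (.leaf 574605018 (-53063393) 1718600 (.mono .none)))) (.splitS (.splitM (.leaf 450349082 (-73088341) 3614400 (.mono .none)) (.leaf 450349082 (-73088341) 3614400 (.mono .none))) (.splitS (.leaf 322455865 (-53658146) 2467672 (.mono .none)) (.splitM (.splitM (.leaf 166851562 (-133165023) 33686539 (.mono .none)) (.leaf 166851562 (-133165023) 33686539 (.mono .none))) (.splitS (.leaf 229414957 (-38630212) 1715123 (.mono .none)) (.leaf 118307901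 (-94534811) 23773090 (.mono .none))))))) (.splitS (.splitS (.splitM (.leaf 669166520 (-42131823) 1084885 (.mono .none)) (.splitM (.leaf 669166520 (-42131823) 1084885 (.mono .none)) (.leaf 669166520 (-42131823) 1084885 (.mono .flat)))) (.splitM (.leaf 574605018 (-53063393) 1718600 (.mono .none)) (.splitS (.leaf 601506171 (-24816758) 373118 (.mono .none)) (.leaf 548561885 (-28246634) 492226 (.mono .none))))) (.splitS (.splitM (.splitM (.leaf 450349082 (-73088341) 3614400 (.mono .none)) (.leaf 450349082 (-73088341) 3614400 (.mono .none))) (.splitS (.leaf 487571420 (-32953541) 701937 (.mono .none)) (.leaf 414923956 (-40134800) 1142815 (.mono .none)))) (.splitS (.splitM (.leaf 322455865 (-53658146) 2467672 (.mono .none)) (.leaf 322455865 (-53658146) 2467672 .out)) (.splitM (.splitS (.leaf 229414957 (-38630212) 1715123 .out) (.leaf 118307901 (-94534811) 23773090 .out)) (.leaf 166851562 (-133165023) 33686539 .out))))))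

/-- Part of the certificate. -/
def treeD22 : Tree :=
  .splitM (.splitS (.splitM (.splitS (.splitM (.splitS (.leaf 919893211 (-10098700) 104217 (.mono .flat)) (.leaf 898840272 (-10961734) 111714 (.mono .flat))) (.splitS (.leaf 919893211 (-10098700) 104217 (.mono .flat)) (.leaf 898840272 (-10961734) 111714 (.mono .flat)))) (.splitM (.leaf 863482121 (-24788690) 503989 (.mono .flat)) (.splitS (.leaf 875997048 (-11890461) 120686 (.mono .flat)) (.leaf 851219208 (-12898229) 131537 (.mono .flat))))) (.splitS (.splitM (.splitS (.leaf 919893211 (-10098700) 104217 (.mono .flat)) (.leaf 898840272 (-10961734) 111714 (.mono .flat))) (.splitS (.leaf 919893211 (-10098700) 104217 (.mono .flat)) (.leaf 898840272 (-10961734) 111714 (.mono .flat)))) (.splitM (.splitS (.leaf 875997048 (-11890461) 120686 (.mono .flat)) (.leaf 851219208 (-12898229) 131537 (.mono .flat))) (.splitS (.leaf 875997048 (-11890461) 120686 (.mono .flat)) (.leaf 851219208 (-12898229) 131537 (.mono .flat)))))) (.splitM (.splitS (.splitM (.leaf 809573667 (-29227452) 611678 (.mono .flat)) (.leaf 809573667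 (-29227452) 611678 (.mono .flat))) (.splitS (.leaf 763319196 (-16597776) 182437 (.mono .flat)) (.splitM (.leaf 728586030 (-18162761) 209810 (.mono .flat)) (.leaf 728586030 (-18162761) 209810 (.mono .flat))))) (.splitS (.splitM (.leaf 809573667 (-29227452) 611678 (.mono .flat)) (.splitS (.leaf 824332030 (-14002248) 144837 (.mono .flat)) (.leaf 795121141 (-15225203) 161401 (.mono .flat)))) (.splitM (.splitS (.leaf 763319196 (-16597776) 182437 (.mono .flat)) (.splitM (.leaf 728586030 (-18162761) 209810 (.mono .flat)) (.leaf 728586030 (-18162761) 209810 (.mono .flat)))) (.splitS (.splitM (.leaf 763319196 (-16597776) 182437 (.mono .flat)) (.leaf 763319196 (-16597776) 182437 (.mono .flat))) (.splitS (.splitM (.leaf 737717900 (-8871604) 50522 (.mono .flat)) (.leaf 737717900 (-8871604) 50522 (.mono .chord))) (.splitM (.leaf 719559060 (-9291157) 54444 (.mono .chord)) (.leaf 719559060 (-9291157) 54444 (.mono .half))))))))) (.splitS (.splitS (.splitM (.splitM (.splitS (.leaf 919893211 (-10098700) 104217 (.mono .flat)) (.leaf 898840272 (-10961734) 111714 (.mono .flat)))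 (.leaf 909258835 (-21060435) 431576 (.mono .flat))) (.splitM (.leaf 909258835 (-21060435) 431576 (.mono .flat)) (.leaf 909258835 (-21060435) 431576 (.mono .flat)))) (.splitM (.splitM (.splitS (.leaf 875997048 (-11890461) 120686 (.mono .flat)) (.leaf 851219208 (-12898229) 131537 (.mono .flat))) (.splitS (.leaf 875997048 (-11890461) 120686 (.mono .flat)) (.leaf 851219208 (-12898229) 131537 (.mono .flat)))) (.splitS (.splitM (.leaf 875997048 (-11890461) 120686 (.mono .flat)) (.leaf 875997048 (-11890461) 120686 (.mono .flat))) (.splitM (.leaf 851219208 (-12898229) 131537 (.mono .flat)) (.leaf 851219208 (-12898229) 131537 (.mono .flat)))))) (.splitS (.splitM (.splitS (.splitM (.leaf 824332030 (-14002248) 144837 (.mono .flat)) (.leaf 824332030 (-14002248) 144837 (.mono .flat))) (.splitM (.leaf 795121141 (-15225203) 161401 (.mono .flat)) (.splitS (.leaf 802772934 (-7451216) 39207 (.mono .flat)) (.splitM (.leaf 787550048 (-7773986) 41525 (.mono .flat)) (.leaf 787550048 (-7773986) 41525 (.mono .chord)))))) (.splitM (.splitS (.splitM (.leaf 824332030 (-14002248) 144837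 (.mono .flat)) (.leaf 824332030 (-14002248) 144837 (.mono .chord))) (.splitM (.splitS (.leaf 802772934 (-7451216) 39207 (.mono .chord)) (.leaf 787550048 (-7773986) 41525 (.mono .none))) (.leaf 795121141 (-15225203) 161401 (.mono .half)))) (.splitS (.splitM (.leaf 824332030 (-14002248) 144837 (.mono .chord)) (.leaf 824332030 (-14002248) 144837 (.mono .none))) (.leaf 795121141 (-15225203) 161401 .out)))) (.splitM (.splitS (.splitM (.splitM (.splitS (.leaf 771662205 (-8116473) 44143 (.mono .flat)) (.leaf 755067403 (-8481302) 47118 (.mono .chord))) (.splitS (.leaf 771662205 (-8116473) 44143 (.mono .chord)) (.splitM (.leaf 755067403 (-8481302) 47118 (.mono .chord)) (.leaf 755067403 (-8481302) 47118 (.mono .chord))))) (.splitS (.splitM (.leaf 771662205 (-8116473) 44143 (.mono .chord)) (.leaf 771662205 (-8116473) 44143 (.mono .none))) (.leaf 755067403 (-8481302) 47118 .out))) (.splitM (.splitM (.splitS (.leaf 737717900 (-8871604) 50522 (.mono .half)) (.leaf 719559060 (-9291157) 54444 .out)) (.leaf 728586030 (-18162761) 209810 .out)) (.leaf 728586030 (-18162761)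 209810 .out))) (.leaf 745756916 (-34760538) 782919 .out))))

/-- Part of the certificate. -/
def treeD11 : Tree :=
  .splitS (treeD22) (.splitM (.splitS (.splitS (.splitM (.splitS (.splitM (.leaf 690477890 (-19982102) 246534 (.mono .flat)) (.leaf 690477890 (-19982102) 246534 (.mono .flat))) (.splitM (.leaf 648397310 (-22149720) 297778 (.mono .none)) (.leaf 648397310 (-22149720) 297778 (.mono .half)))) (.splitS (.splitM (.splitS (.leaf 700527892 (-9744569) 59004 (.mono .chord)) (.leaf 680551141 (-10237532) 64355 (.mono .half))) (.splitM (.splitS (.leaf 700527892 (-9744569) 59004 (.mono .none)) (.leaf 680551141 (-10237532) 64355 .out)) (.leaf 690477890 (-19982102) 246534 .out))) (.splitM (.splitM (.leaf 648397310 (-22149720) 297778 (.mono .none)) (.leaf 648397310 (-22149720) 297778 .out)) (.leaf 648397310 (-22149720) 297778 .out)))) (.splitM (.splitS (.splitM (.leaf 601506171 (-24816758) 373118 (.mono .none)) (.leaf 601506171 (-24816758) 373118 (.mono .none))) (.splitM (.leaf 548561885 (-28246634) 492226 (.mono .none)) (.leaf 548561885 (-28246634) 492226 .out)))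 (.leaf 574605018 (-53063393) 1718600 .out))) (.splitS (.leaf 450349082 (-73088341) 3614400 .out) (.leaf 234652939 (-186823170) 47829769 .out))) (.splitS (.leaf 620516285 (-95195216) 5498044 .out) (.leaf 328103059 (-259911512) 68191547 .out)))

/-- Part of the certificate. -/
def treeD5 : Tree :=
  .splitM (treeD10) (treeD11)

/-- Part of the certificate. -/
def treeD2 : Tree :=
  .splitS (treeD4) (treeD5)

/-- Part of the certificate. -/
def treeD3 : Tree :=
  .splitS (.splitM (.splitS (.splitM (.splitS (.splitM (.splitS (.splitM (.leaf 1072954815 (-1049602) 262594 (.split .flat)) (.leaf 1072954815 (-1049602) 262594 (.volume .flat))) (.splitM (.splitS (.leaf 1070393864 (-1314900) 66146 (.split .flat)) (.leaf 1067233238 (-1846314) 66735 (.mono .flat))) (.leaf 1068747112 (-3161214) 265709 (.volume .flat)))) (.leaf 1070586818 (-4210817) 1055812 (.volume .flat))) (.splitM (.splitS (.splitM (.splitS (.leaf 1063004445 (-2383278) 67535 (.mono .flat)) (.leaf 1057694665 (-2927522) 68557 (.mono .flat))) (.leaf 1060281512 (-5310801) 272125 (.mono .flat))) (.leaf 1047454564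 (-7526267) 282247 (.volume .flat))) (.leaf 1053590894 (-12837069) 1107775 (.volume .flat)))) (.splitS (.leaf 1070586818 (-4210817) 1055812 (.volume .flat)) (.leaf 1053590894 (-12837069) 1107775 (.volume .flat)))) (.splitM (.splitS (.splitM (.splitM (.leaf 1018741199 (-22130369) 1225519 (.volume .flat)) (.leaf 1018741199 (-22130369) 1225519 (.volume .flat))) (.leaf 1018741199 (-22130369) 1225519 (.volume .flat))) (.splitS (.splitM (.splitM (.leaf 980800674 (-14928447) 343811 (.mono .flat)) (.leaf 980800674 (-14928447) 343811 (.mono .flat))) (.leaf 980800674 (-14928447) 343811 (.mono .flat))) (.splitM (.splitM (.leaf 948088715 (-17820359) 380660 (.mono .flat)) (.leaf 948088715 (-17820359) 380660 (.mono .flat))) (.splitM (.leaf 948088715 (-17820359) 380660 (.mono .flat)) (.leaf 948088715 (-17820359) 380660 (.mono .flat)))))) (.splitS (.splitM (.leaf 1018741199 (-22130369) 1225519 (.volume .flat)) (.leaf 1018741199 (-22130369) 1225519 (.volume .flat))) (.splitS (.leaf 980800674 (-14928447) 343811 (.volume .flat)) (.splitM (.leaf 948088715 (-17820359) 380660 (.volume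 .flat)) (.leaf 948088715 (-17820359) 380660 (.volume .flat))))))) (.splitS (.splitM (.leaf 1061007341 (-17047886) 4313405 (.volume .flat)) (.leaf 1061007341 (-17047886) 4313405 (.volume .flat))) (.splitM (.splitS (.leaf 1018741199 (-22130369) 1225519 (.volume .flat)) (.leaf 964082877 (-32748807) 1446374 (.volume .chord))) (.leaf 990080155 (-54879176) 5313283 (.volume .half))))) (.splitM (.splitS (.splitM (.splitS (.splitS (.splitM (.splitM (.leaf 909258835 (-21060435) 431576 (.mono .flat)) (.leaf 909258835 (-21060435) 431576 (.mono .flat))) (.splitM (.leaf 909258835 (-21060435) 431576 (.mono .flat)) (.leaf 909258835 (-21060435) 431576 (.mono .chord)))) (.splitM (.splitS (.splitM (.leaf 875997048 (-11890461) 120686 (.mono .flat)) (.leaf 875997048 (-11890461) 120686 (.mono .flat))) (.splitM (.leaf 851219208 (-12898229) 131537 (.mono .chord)) (.leaf 851219208 (-12898229) 131537 (.mono .none)))) (.splitM (.splitS (.leaf 875997048 (-11890461) 120686 (.mono .none)) (.leaf 851219208 (-12898229) 131537 .out)) (.leaf 863482121 (-24788690) 503989 .out)))) (.splitM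 (.splitS (.splitM (.splitS (.leaf 824332030 (-14002248) 144837 (.mono .none)) (.leaf 795121141 (-15225203) 161401 .out)) (.leaf 809573667 (-29227452) 611678 .out)) (.leaf 745756916 (-34760538) 782919 .out)) (.leaf 776972685 (-63987991) 2771235 .out))) (.splitS (.splitS (.splitM (.splitM (.leaf 909258835 (-21060435) 431576 (.mono .chord)) (.leaf 909258835 (-21060435) 431576 (.mono .none))) (.leaf 909258835 (-21060435) 431576 (.mono .half))) (.leaf 863482121 (-24788690) 503989 .out)) (.leaf 776972685 (-63987991) 2771235 .out))) (.leaf 453180060 (-355106729) 98073331 .out)) (.splitS (.splitM (.leaf 829159714 (-109837118) 9109137 .out) (.leaf 829159714 (-109837118) 9109137 .out)) (.leaf 453180060 (-355106729) 98073331 .out)))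

/-- Part of the certificate. -/
def treeD : Tree :=
  .splitM (treeD2) (treeD3)

set_option maxRecDepth 100000 in
theorem treeD8_check : treeD8.check parD 0 536870912 0 671088640 = true := by
  decide +kernel

set_option maxRecDepth 100000 in
theorem treeD18_check : treeD18.check parD 0 268435456 671088640 1342177280 = true := by
  decide +kernel

set_option maxRecDepth 100000 in
theorem treeD19_check : treeD19.check parD 268435456 536870912 671088640 1342177280 = true := by
  decide +kernel

theorem treeD9_check : treeD9.check parD 0 536870912 671088640 1342177280 = true :=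
  Tree.check_splitS (by norm_num) treeD18_check treeD19_check

theorem treeD4_check : treeD4.check parD 0 536870912 0 1342177280 = true :=
  Tree.check_splitM (by norm_num) treeD8_check treeD9_check

set_option maxRecDepth 100000 in
theorem treeD5_check : treeD5.check parD 536870912 1073741824 0 1342177280 = true := by
  decide +kernel

theorem treeD2_check : treeD2.check parD 0 1073741824 0 1342177280 = true :=
  Tree.check_splitS (by norm_num) treeD4_check treeD5_check

set_option maxRecDepth 100000 in
theorem treeD3_check : treeD3.check parD 0 1073741824 1342177280 2684354560 = true := by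
  decide +kernel

theorem treeD_check : treeD.check parD 0 1073741824 0 2684354560 = true :=
  Tree.check_splitM (by norm_num) treeD2_check treeD3_check

end Vale.Agent.P237.Five
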