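import Vale.Agent.P237.Five.Parts

/-!
# A certificate of the stage inequality in five dimensions: the range E

`S = √(1-q²)`, `m = (q-p)/S`, in units of `2⁻³⁰`.  The partition of `[0,1] × [0,5/2]` was found by
bisection.
-/

namespace Vale.Agent.P237.Five

/-- Part of the certificate. -/
def treeE37 : Tree :=
  .splitS (.splitM (.splitS (.splitM (.leaf 1072954815 (-1049602) 262594 (.mono .flat)) (.splitS (.leaf 1073545180 (-262208) 65565 (.mono .flat)) (.leaf 1072495770 (-787393) 65758 (.mono .flat)))) (.splitM (.leaf 1068747112 (-3161214) 265709 (.mono .flat)) (.splitS (.leaf 1070393864 (-1314900) 66146 (.mono .flat)) (.leaf 1067233238 (-1846314) 66735 (.mono .flat))))) (.splitS (.splitM (.splitS (.splitM (.leaf 1073545180 (-262208) 65565 (.mono .flat)) (.leaf 1073545180 (-262208) 65565 (.mono .flat))) (.splitM (.leaf 1072495770 (-787393) 65758 (.mono .flat)) (.leaf 1072495770 (-787393) 65758 (.mono .flat)))) (.splitS (.splitM (.leaf 1073545180 (-262208) 65565 (.mono .flat)) (.leaf 1073545180 (-262208) 65565 (.mono .flat))) (.splitM (.leaf 1072495770 (-787393)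 65758 (.mono .flat)) (.leaf 1072495770 (-787393) 65758 (.mono .flat))))) (.splitM (.splitS (.splitM (.leaf 1070393864 (-1314900) 66146 (.mono .flat)) (.leaf 1070393864 (-1314900) 66146 (.mono .flat))) (.splitM (.leaf 1067233238 (-1846314) 66735 (.mono .flat)) (.leaf 1067233238 (-1846314) 66735 (.mono .flat)))) (.splitS (.splitM (.leaf 1070393864 (-1314900) 66146 (.mono .flat)) (.leaf 1070393864 (-1314900) 66146 (.mono .flat))) (.splitM (.leaf 1067233238 (-1846314) 66735 (.mono .flat)) (.splitS (.leaf 1068173036 (-856422) 16642 (.mono .flat)) (.leaf 1066326809 (-989891) 16729 (.mono .flat)))))))) (.splitM (.splitS (.splitM (.leaf 1060281512 (-5310801) 272125 (.mono .flat)) (.splitS (.leaf 1063004445 (-2383278) 67535 (.mono .flat)) (.leaf 1057694665 (-2927522) 68557 (.mono .flat)))) (.splitM (.splitS (.leaf 1051287512 (-3480891) 69818 (.mono .flat)) (.leaf 1043762765 (-4045376) 71339 (.mono .flat))) (.splitS (.leaf 1051287512 (-3480891) 69818 (.mono .flat)) (.leaf 1043762765 (-4045376) 71339 (.mono .flat))))) (.splitS (.splitM (.splitS (.splitM (.leaf 1063004445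 (-2383278) 67535 (.mono .flat)) (.leaf 1063004445 (-2383278) 67535 (.mono .flat))) (.splitM (.leaf 1057694665 (-2927522) 68557 (.mono .flat)) (.leaf 1057694665 (-2927522) 68557 (.mono .flat)))) (.splitS (.splitM (.leaf 1063004445 (-2383278) 67535 (.mono .flat)) (.leaf 1063004445 (-2383278) 67535 (.mono .flat))) (.splitM (.leaf 1057694665 (-2927522) 68557 (.mono .flat)) (.leaf 1057694665 (-2927522) 68557 (.mono .flat))))) (.splitM (.splitS (.splitM (.leaf 1051287512 (-3480891) 69818 (.mono .flat)) (.leaf 1051287512 (-3480891) 69818 (.mono .flat))) (.splitM (.leaf 1043762765 (-4045376) 71339 (.mono .flat)) (.leaf 1043762765 (-4045376) 71339 (.mono .flat)))) (.splitS (.splitM (.leaf 1051287512 (-3480891) 69818 (.mono .flat)) (.leaf 1051287512 (-3480891) 69818 (.mono .flat))) (.splitM (.leaf 1043762765 (-4045376) 71339 (.mono .flat)) (.leaf 1043762765 (-4045376) 71339 (.mono .flat)))))))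

/-- Part of the certificate. -/
def treeE18 : Tree :=
  .splitM (.splitS (.splitM (.leaf 1070586818 (-4210817) 1055812 (.split .none)) (.splitS (.leaf 1072954815 (-1049602) 262594 (.split .none)) (.leaf 1068747112 (-3161214) 265709 (.mono .flat)))) (.splitM (.leaf 1053590894 (-12837069) 1107775 (.split .none)) (.splitS (.splitM (.leaf 1060281512 (-5310801) 272125 (.mono .none)) (.leaf 1060281512 (-5310801) 272125 (.mono .flat))) (.splitM (.leaf 1047454564 (-7526267) 282247 (.mono .none)) (.leaf 1047454564 (-7526267) 282247 (.mono .flat)))))) (treeE37)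

/-- Part of the certificate. -/
def treeE9 : Tree :=
  .splitS (treeE18) (.splitM (.splitS (.splitM (.splitS (.leaf 1030102993 (-9839811) 296755 (.mono .none)) (.leaf 1007992589 (-12290557) 316721 (.mono .none))) (.splitS (.splitM (.leaf 1030102993 (-9839811) 296755 (.mono .none)) (.leaf 1030102993 (-9839811) 296755 (.mono .flat))) (.splitM (.leaf 1007992589 (-12290557) 316721 (.mono .flat)) (.leaf 1007992589 (-12290557) 316721 (.mono .flat))))) (.splitM (.splitS (.leaf 980800674 (-14928447) 343811 (.mono .none)) (.leaf 948088715 (-17820359) 380660 (.mono .flat))) (.splitS (.splitM (.leaf 980800674 (-14928447) 343811 (.mono .flat)) (.leaf 980800674 (-14928447) 343811 (.mono .flat))) (.splitM (.leaf 948088715 (-17820359) 380660 (.mono .flat)) (.leaf 948088715 (-17820359) 380660 (.mono .flat)))))) (.splitS (.splitM (.splitS (.splitM (.splitS (.leaf 1035096038 (-4623157) 73147 (.mono .flat)) (.leaf 1025258352 (-5216653) 75272 (.mono .flat))) (.splitS (.leaf 1035096038 (-4623157) 73147 (.mono .flat)) (.leaf 1025258352 (-5216653) 75272 (.mono .flat)))) (.splitM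 (.leaf 1007992589 (-12290557) 316721 (.mono .flat)) (.splitS (.leaf 1014215614 (-5828570) 77759 (.mono .flat)) (.leaf 1001927952 (-6461986) 80655 (.mono .flat))))) (.splitS (.splitM (.splitS (.leaf 1035096038 (-4623157) 73147 (.mono .flat)) (.leaf 1025258352 (-5216653) 75272 (.mono .flat))) (.splitS (.leaf 1035096038 (-4623157) 73147 (.mono .flat)) (.leaf 1025258352 (-5216653) 75272 (.mono .flat)))) (.splitM (.splitS (.leaf 1014215614 (-5828570) 77759 (.mono .flat)) (.leaf 1001927952 (-6461986) 80655 (.mono .flat))) (.splitS (.leaf 1014215614 (-5828570) 77759 (.mono .flat)) (.leaf 1001927952 (-6461986) 80655 (.mono .flat)))))) (.splitM (.splitS (.splitM (.leaf 980800674 (-14928447) 343811 (.mono .flat)) (.leaf 980800674 (-14928447) 343811 (.mono .flat))) (.splitM (.leaf 948088715 (-17820359) 380660 (.mono .flat)) (.leaf 948088715 (-17820359) 380660 (.mono .flat)))) (.splitS (.splitM (.leaf 980800674 (-14928447) 343811 (.mono .flat)) (.leaf 980800674 (-14928447) 343811 (.mono .flat))) (.splitM (.leaf 948088715 (-17820359) 380660 (.mono .flat)) (.leaf 948088715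 (-17820359) 380660 (.mono .flat)))))))

/-- Part of the certificate. -/
def treeE4 : Tree :=
  .splitM (.splitS (.splitM (.splitS (.leaf 1070586818 (-4210817) 1055812 .small) (.splitM (.leaf 1053590894 (-12837069) 1107775 .small) (.splitS (.leaf 1060281512 (-5310801) 272125 .small) (.leaf 1047454564 (-7526267) 282247 (.split .none))))) (.splitS (.splitM (.splitS (.splitM (.leaf 1072954815 (-1049602) 262594 .small) (.leaf 1072954815 (-1049602) 262594 (.split .none))) (.splitM (.leaf 1068747112 (-3161214) 265709 (.mono .none)) (.leaf 1068747112 (-3161214) 265709 (.mono .none)))) (.splitS (.leaf 1072954815 (-1049602) 262594 (.split .none)) (.leaf 1068747112 (-3161214) 265709 (.split .none)))) (.splitM (.splitS (.leaf 1060281512 (-5310801) 272125 (.split .none)) (.leaf 1047454564 (-7526267) 282247 (.split .none))) (.leaf 1053590894 (-12837069) 1107775 (.split .none))))) (.splitM (.splitS (.splitM (.splitS (.leaf 1030102993 (-9839811) 296755 .small) (.leaf 1007992589 (-12290557) 316721 (.split .none))) (.splitS (.leaf 1030102993 (-9839811) 296755 (.split .none))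 (.leaf 1007992589 (-12290557) 316721 (.mono .none)))) (.splitM (.leaf 964082877 (-32748807) 1446374 (.split .none)) (.leaf 964082877 (-32748807) 1446374 (.split .none)))) (.splitS (.splitM (.leaf 1018741199 (-22130369) 1225519 (.split .none)) (.leaf 1018741199 (-22130369) 1225519 (.split .none))) (.splitM (.leaf 964082877 (-32748807) 1446374 (.mono .none)) (.leaf 964082877 (-32748807) 1446374 (.mono .none)))))) (treeE9)

/-- Part of the certificate. -/
def treeE22 : Tree :=
  .splitM (.splitS (.splitM (.splitS (.leaf 909258835 (-21060435) 431576 (.mono .flat)) (.leaf 863482121 (-24788690) 503989 (.mono .flat))) (.splitS (.splitM (.leaf 909258835 (-21060435) 431576 (.mono .flat)) (.leaf 909258835 (-21060435) 431576 (.mono .flat))) (.leaf 863482121 (-24788690) 503989 (.mono .flat)))) (.splitM (.splitS (.leaf 809573667 (-29227452) 611678 (.mono .flat)) (.leaf 745756916 (-34760538) 782919 (.mono .flat))) (.splitS (.splitM (.leaf 809573667 (-29227452) 611678 (.mono .flat)) (.leaf 809573667 (-29227452) 611678 (.mono .flat))) (.splitS (.leaf 763319196 (-16597776)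 182437 (.mono .flat)) (.splitM (.leaf 728586030 (-18162761) 209810 (.mono .none)) (.leaf 728586030 (-18162761) 209810 (.mono .none))))))) (.splitS (.splitM (.splitS (.splitM (.leaf 909258835 (-21060435) 431576 (.mono .flat)) (.leaf 909258835 (-21060435) 431576 (.mono .flat))) (.splitM (.leaf 863482121 (-24788690) 503989 (.mono .flat)) (.leaf 863482121 (-24788690) 503989 (.mono .flat)))) (.splitS (.splitM (.leaf 909258835 (-21060435) 431576 (.mono .flat)) (.leaf 909258835 (-21060435) 431576 (.mono .flat))) (.splitS (.leaf 875997048 (-11890461) 120686 (.mono .flat)) (.splitM (.leaf 851219208 (-12898229) 131537 (.mono .flat)) (.splitM (.leaf 851219208 (-12898229) 131537 (.mono .flat)) (.leaf 851219208 (-12898229) 131537 (.mono .flat))))))) (.splitS (.splitM (.splitM (.splitS (.leaf 824332030 (-14002248) 144837 (.mono .flat)) (.leaf 795121141 (-15225203) 161401 (.mono .flat))) (.splitS (.leaf 824332030 (-14002248) 144837 (.mono .flat)) (.splitM (.leaf 795121141 (-15225203) 161401 (.mono .flat)) (.leaf 795121141 (-15225203) 161401 (.mono .chord))))) (.splitS (.splitM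 (.splitM (.leaf 824332030 (-14002248) 144837 (.mono .flat)) (.leaf 824332030 (-14002248) 144837 (.mono .chord))) (.splitS (.splitM (.leaf 831368441 (-6856298) 35298 (.mono .flat)) (.leaf 831368441 (-6856298) 35298 (.mono .chord))) (.splitM (.leaf 817368037 (-7145949) 37143 (.mono .none)) (.leaf 817368037 (-7145949) 37143 .out)))) (.splitM (.splitM (.leaf 795121141 (-15225203) 161401 (.mono .half)) (.leaf 795121141 (-15225203) 161401 (.mono .half))) (.leaf 795121141 (-15225203) 161401 .out)))) (.splitM (.splitS (.splitM (.leaf 763319196 (-16597776) 182437 (.mono .chord)) (.splitM (.leaf 763319196 (-16597776) 182437 (.mono .none)) (.leaf 763319196 (-16597776) 182437 (.mono .none)))) (.splitM (.leaf 728586030 (-18162761) 209810 (.mono .none)) (.leaf 728586030 (-18162761) 209810 .out))) (.leaf 745756916 (-34760538) 782919 .out))))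

/-- Part of the certificate. -/
def treeE11 : Tree :=
  .splitS (treeE22) (.splitM (.splitS (.splitS (.splitM (.splitM (.leaf 669166520 (-42131823) 1084885 (.mono .none)) (.leaf 669166520 (-42131823) 1084885 (.mono .none))) (.splitS (.leaf 690477890 (-19982102) 246534 (.mono .none)) (.leaf 648397310 (-22149720) 297778 (.mono .none)))) (.splitM (.leaf 574605018 (-53063393) 1718600 (.mono .none)) (.leaf 574605018 (-53063393) 1718600 .out))) (.splitS (.leaf 450349082 (-73088341) 3614400 .out) (.leaf 234652939 (-186823170) 47829769 .out))) (.splitS (.leaf 620516285 (-95195216) 5498044 .out) (.leaf 328103059 (-259911512) 68191547 .out)))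

/-- Part of the certificate. -/
def treeE5 : Tree :=
  .splitM (.splitS (.splitM (.splitS (.splitM (.leaf 885903944 (-45849126) 1865376 (.split .none)) (.leaf 885903944 (-45849126) 1865376 (.mono .none))) (.splitM (.leaf 776972685 (-63987991) 2771235 (.mono .none)) (.leaf 776972685 (-63987991) 2771235 (.mono .none)))) (.splitS (.splitS (.leaf 909258835 (-21060435) 431576 (.mono .none)) (.leaf 863482121 (-24788690) 503989 (.mono .none))) (.splitS (.splitM (.leaf 809573667 (-29227452) 611678 (.mono .none)) (.leaf 809573667 (-29227452) 611678 (.mono .none))) (.splitM (.leaf 745756916 (-34760538) 782919 (.mono .none)) (.leaf 745756916 (-34760538) 782919 (.mono .none)))))) (.splitM (.splitS (.splitM (.leaf 620516285 (-95195216) 5498044 (.mono .none)) (.leaf 620516285 (-95195216) 5498044 (.mono .none))) (.splitS (.leaf 450349082 (-73088341) 3614400 (.mono .none)) (.splitS (.leaf 322455865 (-53658146) 2467672 (.mono .none)) (.splitM (.leaf 166851562 (-133165023) 33686539 (.mono .none)) (.leaf 166851562 (-133165023) 33686539 (.mono .none)))))) (.splitS (.splitS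 (.splitM (.leaf 669166520 (-42131823) 1084885 (.mono .none)) (.leaf 669166520 (-42131823) 1084885 (.mono .none))) (.splitM (.leaf 574605018 (-53063393) 1718600 (.mono .none)) (.leaf 574605018 (-53063393) 1718600 (.mono .none)))) (.splitS (.splitM (.leaf 450349082 (-73088341) 3614400 (.mono .none)) (.leaf 450349082 (-73088341) 3614400 (.mono .none))) (.splitS (.leaf 322455865 (-53658146) 2467672 (.mono .none)) (.splitM (.splitM (.leaf 166851562 (-133165023) 33686539 (.mono .none)) (.leaf 166851562 (-133165023) 33686539 .out)) (.leaf 166851562 (-133165023) 33686539 .out))))))) (treeE11)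

/-- Part of the certificate. -/
def treeE2 : Tree :=
  .splitS (treeE4) (treeE5)

/-- Part of the certificate. -/
def treeE12 : Tree :=
  .splitS (.splitM (.splitS (.splitM (.splitS (.splitM (.splitS (.splitM (.leaf 1073545180 (-262208) 65565 (.mono .flat)) (.leaf 1073545180 (-262208) 65565 (.mono .flat))) (.splitM (.leaf 1072495770 (-787393) 65758 (.mono .flat)) (.leaf 1072495770 (-787393) 65758 (.mono .flat)))) (.splitS (.splitM (.leaf 1073545180 (-262208) 65565 (.mono .flat)) (.leaf 1073545180 (-262208) 65565 (.mono .flat))) (.splitM (.leaf 1072495770 (-787393) 65758 (.mono .flat)) (.leaf 1072495770 (-787393) 65758 (.mono .flat))))) (.splitM (.splitS (.splitM (.leaf 1070393864 (-1314900) 66146 (.mono .flat)) (.leaf 1070393864 (-1314900) 66146 (.mono .flat))) (.splitM (.leaf 1067233238 (-1846314) 66735 (.mono .flat)) (.leaf 1067233238 (-1846314) 66735 (.mono .flat)))) (.splitS (.splitM (.leaf 1070393864 (-1314900) 66146 (.mono .flat)) (.leaf 1070393864 (-1314900) 66146 (.mono .flat))) (.splitM (.leaf 1067233238 (-1846314) 66735 (.mono .flat)) (.leaf 1067233238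 (-1846314) 66735 (.mono .flat)))))) (.splitM (.splitS (.splitS (.leaf 1073545180 (-262208) 65565 (.mono .flat)) (.leaf 1072495770 (-787393) 65758 (.mono .flat))) (.splitS (.leaf 1070393864 (-1314900) 66146 (.mono .flat)) (.leaf 1067233238 (-1846314) 66735 (.mono .flat)))) (.leaf 1070586818 (-4210817) 1055812 (.volume .flat)))) (.splitM (.splitS (.splitM (.splitS (.splitM (.leaf 1063004445 (-2383278) 67535 (.mono .flat)) (.leaf 1063004445 (-2383278) 67535 (.mono .flat))) (.splitM (.leaf 1057694665 (-2927522) 68557 (.mono .flat)) (.leaf 1057694665 (-2927522) 68557 (.mono .flat)))) (.splitS (.splitM (.leaf 1063004445 (-2383278) 67535 (.mono .flat)) (.leaf 1063004445 (-2383278) 67535 (.mono .flat))) (.leaf 1057694665 (-2927522) 68557 (.mono .flat)))) (.splitM (.splitS (.splitM (.leaf 1051287512 (-3480891) 69818 (.mono .flat)) (.leaf 1051287512 (-3480891) 69818 (.mono .flat))) (.leaf 1043762765 (-4045376) 71339 (.mono .flat))) (.splitS (.leaf 1051287512 (-3480891) 69818 (.mono .flat)) (.leaf 1043762765 (-4045376) 71339 (.mono .flat))))) (.splitM (.splitS (.splitS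 (.leaf 1063004445 (-2383278) 67535 (.mono .flat)) (.leaf 1057694665 (-2927522) 68557 (.mono .flat))) (.leaf 1047454564 (-7526267) 282247 (.volume .flat))) (.leaf 1053590894 (-12837069) 1107775 (.volume .flat))))) (.splitM (.splitS (.leaf 1070586818 (-4210817) 1055812 (.volume .flat)) (.leaf 1053590894 (-12837069) 1107775 (.volume .flat))) (.leaf 1061007341 (-17047886) 4313405 (.volume .flat)))) (.splitM (.splitS (.splitS (.splitM (.splitM (.splitS (.leaf 1035096038 (-4623157) 73147 (.mono .flat)) (.leaf 1025258352 (-5216653) 75272 (.mono .flat))) (.splitS (.leaf 1035096038 (-4623157) 73147 (.mono .flat)) (.leaf 1025258352 (-5216653) 75272 (.mono .flat)))) (.splitM (.leaf 1030102993 (-9839811) 296755 (.mono .flat)) (.leaf 1030102993 (-9839811) 296755 (.mono .flat)))) (.splitM (.splitM (.leaf 1007992589 (-12290557) 316721 (.mono .flat)) (.leaf 1007992589 (-12290557) 316721 (.mono .flat))) (.splitM (.leaf 1007992589 (-12290557) 316721 (.mono .flat)) (.leaf 1007992589 (-12290557) 316721 (.mono .flat))))) (.splitM (.splitS (.splitM (.leaf 980800674 (-14928447)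 343811 (.mono .flat)) (.leaf 980800674 (-14928447) 343811 (.mono .flat))) (.splitM (.leaf 948088715 (-17820359) 380660 (.mono .flat)) (.leaf 948088715 (-17820359) 380660 (.mono .flat)))) (.splitS (.splitM (.leaf 980800674 (-14928447) 343811 (.mono .flat)) (.leaf 980800674 (-14928447) 343811 (.mono .flat))) (.splitM (.leaf 948088715 (-17820359) 380660 (.mono .flat)) (.leaf 948088715 (-17820359) 380660 (.mono .flat)))))) (.splitS (.splitM (.splitS (.leaf 1030102993 (-9839811) 296755 (.volume .flat)) (.leaf 1007992589 (-12290557) 316721 (.mono .flat))) (.leaf 1018741199 (-22130369) 1225519 (.volume .flat))) (.splitS (.splitM (.leaf 980800674 (-14928447) 343811 (.mono .flat)) (.leaf 980800674 (-14928447) 343811 (.mono .flat))) (.splitM (.splitM (.leaf 948088715 (-17820359) 380660 (.mono .flat)) (.leaf 948088715 (-17820359) 380660 (.mono .flat))) (.splitM (.leaf 948088715 (-17820359) 380660 (.mono .flat)) (.leaf 948088715 (-17820359) 380660 (.mono .chord)))))))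

/-- Part of the certificate. -/
def treeE6 : Tree :=
  .splitM (treeE12) (.splitS (.splitM (.splitS (.leaf 1070586818 (-4210817) 1055812 (.volume .flat)) (.leaf 1053590894 (-12837069) 1107775 (.volume .flat))) (.leaf 1061007341 (-17047886) 4313405 (.volume .flat))) (.splitM (.splitS (.splitM (.leaf 1018741199 (-22130369) 1225519 (.volume .flat)) (.leaf 1018741199 (-22130369) 1225519 (.volume .flat))) (.splitM (.splitS (.leaf 980800674 (-14928447) 343811 (.mono .flat)) (.leaf 948088715 (-17820359) 380660 (.mono .chord))) (.leaf 964082877 (-32748807) 1446374 (.volume .chord)))) (.splitS (.leaf 1018741199 (-22130369) 1225519 (.volume .chord)) (.leaf 964082877 (-32748807) 1446374 (.volume .none)))))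

/-- Part of the certificate. -/
def treeE3 : Tree :=
  .splitS (treeE6) (.splitM (.splitS (.splitM (.splitS (.splitS (.splitM (.splitS (.leaf 919893211 (-10098700) 104217 (.mono .flat)) (.leaf 898840272 (-10961734) 111714 (.mono .flat))) (.splitS (.leaf 919893211 (-10098700) 104217 (.mono .flat)) (.splitM (.leaf 898840272 (-10961734) 111714 (.mono .flat)) (.leaf 898840272 (-10961734) 111714 (.mono .chord))))) (.splitM (.splitM (.splitS (.leaf 875997048 (-11890461) 120686 (.mono .flat)) (.splitM (.leaf 851219208 (-12898229) 131537 (.mono .chord)) (.leaf 851219208 (-12898229) 131537 (.mono .chord)))) (.splitS (.splitM (.leaf 875997048 (-11890461) 120686 (.mono .flat)) (.leaf 875997048 (-11890461) 120686 (.mono .chord))) (.splitM (.leaf 851219208 (-12898229) 131537 (.mono .none)) (.leaf 851219208 (-12898229) 131537 .out)))) (.splitM (.splitS (.leaf 875997048 (-11890461) 120686 (.mono .chord)) (.leaf 851219208 (-12898229) 131537 .out)) (.leaf 863482121 (-24788690) 503989 .out)))) (.splitM (.splitS (.splitM (.splitS (.splitM (.leaf 824332030 (-14002248) 144837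 (.mono .none)) (.leaf 824332030 (-14002248) 144837 .out)) (.leaf 795121141 (-15225203) 161401 .out)) (.leaf 809573667 (-29227452) 611678 .out)) (.leaf 745756916 (-34760538) 782919 .out)) (.leaf 776972685 (-63987991) 2771235 .out))) (.splitS (.splitS (.splitM (.splitM (.splitS (.leaf 919893211 (-10098700) 104217 (.mono .flat)) (.leaf 898840272 (-10961734) 111714 (.mono .none))) (.leaf 909258835 (-21060435) 431576 (.mono .chord))) (.splitM (.leaf 909258835 (-21060435) 431576 (.mono .none)) (.leaf 909258835 (-21060435) 431576 .out))) (.leaf 863482121 (-24788690) 503989 .out)) (.leaf 776972685 (-63987991) 2771235 .out))) (.leaf 453180060 (-355106729) 98073331 .out)) (.splitS (.splitM (.leaf 829159714 (-109837118) 9109137 .out) (.leaf 829159714 (-109837118) 9109137 .out)) (.leaf 453180060 (-355106729) 98073331 .out)))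

/-- Part of the certificate. -/
def treeE : Tree :=
  .splitM (treeE2) (treeE3)

set_option maxRecDepth 100000 in
theorem treeE4_check : treeE4.check parE 0 536870912 0 1342177280 = true := by
  decide +kernel

set_option maxRecDepth 100000 in
theorem treeE5_check : treeE5.check parE 536870912 1073741824 0 1342177280 = true := by
  decide +kernel

theorem treeE2_check : treeE2.check parE 0 1073741824 0 1342177280 = true :=
  Tree.check_splitS (by norm_num) treeE4_check treeE5_check

set_option maxRecDepth 100000 in
theorem treeE3_check : treeE3.check parE 0 1073741824 1342177280 2684354560 = true := by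
  decide +kernel

theorem treeE_check : treeE.check parE 0 1073741824 0 2684354560 = true :=
  Tree.check_splitM (by norm_num) treeE2_check treeE3_check

end Vale.Agent.P237.Five
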